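import Vale.Agent.P167.CA.Cell

/-!
# P167, CORE-ASM: the path `t ↦ V_n(t f)`
-/

namespace Vale.Agent.P167.CA

open MeasureTheory Filter Topology Set Complex Metric
open Vale.Agent.P167.BR (VD sites)
open Vale.Agent.P167.H542 (VDc XT)

/-- `∑ f H_n(g; .)` -/
noncomputable def Dat.HS (S : Dat) (n : ℕ) (f g : ℂ → ℝ) : ℝ :=
  ∑ z ∈ sites (S.D n), cms f (1 / n) z * S.H n g z

theorem V_path (S : Dat) (n : ℕ) (f : ℂ → ℝ) (t : ℝ) :
    S.V n (fun z => t * f z) = VD (S.D n) (S.b n) (fun z => t * cms f (1 / n) z) := by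
  unfold Dat.V
  congr 1
  funext z
  exact cms_smul t f _ z

theorem H_path (S : Dat) (n : ℕ) (f : ℂ → ℝ) (t : ℝ) (z : ℤ × ℤ) :
    S.H n (fun z => t * f z) z =
      ∫ x, XT (S.D n) (S.b n) (fun z => t * cms f (1 / n) z) z x ∂Vale.Agent.P167.μ := by
  unfold Dat.H
  have : cms (fun z => t * f z) (1 / n) = fun z => t * cms f (1 / n) z := by
    funext z
    exact cms_smul t f _ z
  rw [this]

/-- The derivative along the path. -/
theorem hasDerivAt_V (S : Dat) (n : ℕ) (f : ℂ → ℝ) (t : ℝ) :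
    HasDerivAt (fun t : ℝ => S.V n (fun z => t * f z)) (-S.HS n f (fun z => t * f z)) t := by
  set F : ℤ × ℤ → ℝ := cms f (1 / n) with hF
  have h1 : HasDerivAt (fun s : ℂ => VDc (S.D n) (S.b n)
      (fun z => ((fun z => t * F z) z : ℂ) + s * (F z : ℂ)))
      ((-∑ z ∈ sites (S.D n), F z * ∫ x, XT (S.D n) (S.b n) (fun z => t * F z) z x
        ∂Vale.Agent.P167.μ : ℝ) : ℂ) 0 := by
    have := (H542.hasDerivAt_VDc (D := S.D n) (p := S.b n) (fun z => ((t * F z : ℝ) : ℂ))
      (fun z => (F z : ℂ)) 0).differentiableAt.hasDerivAt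
    rw [H542.deriv_VDc_zero (fun z => t * F z) F] at this
    simpa using this
  have h2 := h1.real_of_complex
  have h3 : (fun x : ℝ => (VDc (S.D n) (S.b n)
      (fun z => ((fun z => t * F z) z : ℂ) + (x : ℂ) * (F z : ℂ))).re) =
      fun x : ℝ => VD (S.D n) (S.b n) (fun z => (t + x) * F z) := by
    funext x
    have e : (fun z => ((fun z => t * F z) z : ℂ) + (x : ℂ) * (F z : ℂ)) =
        fun z => (((t + x) * F z : ℝ) : ℂ) := by
      funext z; push_cast; ring
    rw [e, H542.VDc_ofReal, Complex.ofReal_re]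
  rw [h3, Complex.ofReal_re] at h2
  have h4 : HasDerivAt (fun y : ℝ => y - t) 1 t := (hasDerivAt_id t).sub_const t
  have h2' : HasDerivAt (fun x : ℝ => VD (S.D n) (S.b n) (fun z => (t + x) * F z))
      (-∑ z ∈ sites (S.D n), F z * ∫ x, XT (S.D n) (S.b n) (fun z => t * F z) z x
        ∂Vale.Agent.P167.μ) (t - t) := by rw [sub_self]; exact h2
  have h5 := HasDerivAt.comp (h₂ := fun x : ℝ => VD (S.D n) (S.b n) (fun z => (t + x) * F z))
    (h := fun y : ℝ => y - t) t h2' h4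
  rw [mul_one] at h5
  have e6 : (fun t : ℝ => S.V n (fun z => t * f z)) =
      (fun x : ℝ => VD (S.D n) (S.b n) (fun z => (t + x) * F z)) ∘ fun y : ℝ => y - t := by
    funext y
    rw [V_path]
    simp only [Function.comp_apply]
    congr 1
    funext z
    ring
  rw [e6]
  refine h5.congr_deriv ?_
  unfold Dat.HS
  congr 1
  refine Finset.sum_congr rfl fun z _ => ?_
  rw [H_path]

/-- The path is the restriction of an entire function. -/
theorem V_entire (S : Dat) (n : ℕ) (f : ℂ → ℝ) : ∃ Φ : ℂ → ℂ, Differentiable ℂ Φ ∧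
    ∀ t : ℝ, ((S.V n (fun z => t * f z) : ℝ) : ℂ) = Φ t := by
  refine ⟨fun s : ℂ => VDc (S.D n) (S.b n) (fun z => (0 : ℂ) + s * (cms f (1 / n) z : ℂ)),
    H542.differentiable_VDc _ _, fun t => ?_⟩
  rw [V_path]
  have e : (fun z => (0 : ℂ) + (t : ℂ) * (cms f (1 / n) z : ℂ)) =
      fun z => ((t * cms f (1 / n) z : ℝ) : ℂ) := by
    funext z; push_cast; ring
  simp only [e, H542.VDc_ofReal]

theorem continuous_HS (S : Dat) (n : ℕ) (f : ℂ → ℝ) :
    Continuous fun t : ℝ => S.HS n f (fun z => t * f z) := by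
  obtain ⟨Φ, h1, h2⟩ := V_entire S n f
  have h3 : (fun t : ℝ => S.HS n f (fun z => t * f z)) = fun t : ℝ => -(deriv Φ t).re := by
    funext t
    have a1 := ((h1 (t : ℂ)).hasDerivAt).real_of_complex
    have a2 : (fun x : ℝ => (Φ x).re) = fun t : ℝ => S.V n (fun z => t * f z) := by
      funext x; rw [← h2, Complex.ofReal_re]
    rw [a2] at a1
    have := a1.unique (hasDerivAt_V S n f t)
    linarith
  rw [h3]
  have h4 : Continuous (deriv Φ) := (h1.contDiff (n := 1)).continuous_deriv le_rfl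
  exact (Complex.continuous_re.comp (h4.comp Complex.continuous_ofReal)).neg

theorem V_zero (S : Dat) (n : ℕ) : S.V n (fun _ => 0) = 1 := by
  have e : cms (fun _ => 0) (1 / (n : ℝ)) = fun _ => 0 := by funext z; exact cms_zero _ z
  unfold Dat.V
  rw [e]
  unfold VD BR.XD BR.mass BR.wp BR.wl BR.ws
  simp

/-- Bounds from (M2). -/
theorem path_bounds (hM : I_M2) (S : Dat) {f : ℂ → ℝ} (hf : S.FF f) :
    ∃ C : ℝ, ∀ᶠ n : ℕ in atTop, (∀ t : ℝ, |t| ≤ 1 → |S.V n (fun z => t * f z)| ≤ C ∧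
      |S.HS n f (fun z => t * f z)| ≤ C) ∧ |S.U n f| ≤ C := by
  obtain ⟨C, hC⟩ := hM S f f hf hf 1
  refine ⟨C, hC.mono fun n hn => ?_⟩
  have h1 : ∀ t : ℝ, |t| ≤ 1 → |S.V n (fun z => t * f z)| ≤ C := by
    intro t ht
    have := hn t ht 0 (by simp)
    simp only [zero_mul, add_zero] at this
    rw [H542.VDc_ofReal (fun z => t * cms f (1 / n) z), Complex.norm_real, Real.norm_eq_abs] at this
    rwa [V_path]
  have h2 : ∀ t : ℝ, |t| ≤ 1 → |S.HS n f (fun z => t * f z)| ≤ C := by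
    intro t ht
    have h3 : Differentiable ℂ fun s : ℂ => VDc (S.D n) (S.b n)
      (fun z => ((t * cms f (1 / n) z : ℝ) : ℂ) + s * (cms f (1 / n) z : ℂ)) :=
      H542.differentiable_VDc _ _
    have h4 := Complex.norm_deriv_le_of_forall_mem_sphere_norm_le (c := 0) (R := 1) (C := C)
      one_pos h3.diffContOnCl fun s hs => hn t ht s (by simpa using le_of_eq hs)
    rw [H542.deriv_VDc_zero (fun z => t * cms f (1 / n) z), Complex.norm_real, Real.norm_eq_abs,
      abs_neg, div_one] at h4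
    refine le_trans (le_of_eq ?_) h4
    unfold Dat.HS
    congr 1
    refine Finset.sum_congr rfl fun z _ => ?_
    rw [H_path]
  refine ⟨fun t ht => ⟨h1 t ht, h2 t ht⟩, ?_⟩
  have h5 := h2 0 (by simp)
  unfold Dat.HS at h5
  simp only [zero_mul] at h5
  exact h5

theorem U_eq (S : Dat) (n : ℕ) (f : ℂ → ℝ) : S.U n f = S.HS n f fun _ => 0 := rfl

/-- The pairing with `W`. -/
theorem sum_W (S : Dat) (n : ℕ) (h f : ℂ → ℝ) :
    ∑ z ∈ sites (S.D n), cms h (1 / n) z * S.W n f z = S.HS n h f - S.V n f * S.U n h := by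
  unfold Dat.HS Dat.U Dat.W
  rw [Finset.mul_sum, ← Finset.sum_sub_distrib]
  refine Finset.sum_congr rfl fun z _ => ?_
  ring

/-- `W` vanishes at the base site. -/
theorem W_base (S : Dat) (n : ℕ) (f : ℂ → ℝ) : S.W n f (S.b n) = 0 := by
  have h : ∀ g, S.H n g (S.b n) = 0 := by
    intro g
    unfold Dat.H XT
    have h1 : ∀ A : Finset Ed, ¬ BR.Sep (S.D n) A (S.b n) (S.b n) := by
      rintro A ⟨u, _, h⟩; exact h rfl
    simp [h1]
  unfold Dat.W
  rw [h, h]; ring

end Vale.Agent.P167.CA
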