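import Vale.Agent.P167.CA.Neu
import Vale.Agent.P167.CA.Path

/-!
# P167, CORE-ASM: from the inputs to the limit of the potentials
-/

namespace Vale.Agent.P167.CA

open MeasureTheory Filter Topology Set Complex Metric
open Vale.Agent.P167.BR (VD sites)
open Vale.Agent.P167.BVP (Test npot)
open P198W (lap)
open scoped ContDiff

/-- The averaged Neumann condition along the unit sides of the polygon. -/
def NeuLim (S : Dat) (W : ℂ → ℝ) : Prop :=
  ∀ (w : ℤ × ℤ) (r : Fin 4), E6.face w r ∈ S.Q → E6.face w (r - 1) ∉ S.Q →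
    ∀ φ : ℝ → ℝ, ContDiff ℝ ∞ φ → tsupport φ ⊆ Ioo 0 1 \ {S.tp} →
    ∀ ε > 0, ∃ r₀ > 0, ∀ h : ℝ, 0 < h → h < r₀ →
      |∫ t : ℝ, φ t * (W (E6.pt w + t * E6.pt (E6.dir r) + h * (I * E6.pt (E6.dir r))) -
        W (E6.pt w + t * E6.pt (E6.dir r)))| ≤ ε * h

/-- (BVP) The Neumann problem in a lattice polygon. -/
def I_BVP : Prop :=
  ∀ (S : Dat) (ψ g : ℂ → ℂ), Pair S.P ψ g → ∀ (f W : ℂ → ℝ) (s : ℝ), Test S.P f →
    ContinuousOn W (E6.region 1 S.Q) →
    (∀ φ, Test S.P φ → ∫ z, W z * lap φ z = - s * ∫ z, f z * φ z) → NeuLim S W →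
    ∃ c : ℝ, ∀ z ∈ S.P, W z = s * npot g f z + c

/-- The rescaled sites are in the closed region. -/
theorem site_region {Q : Finset (ℤ × ℤ)} {n : ℕ} (hn : 0 < n) {z : ℤ × ℤ}
    (hz : z ∈ sites (enl Q n)) : E6.pt z / n ∈ E6.region 1 Q := by
  have hn' : (0 : ℝ) < n := by exact_mod_cast hn
  unfold sites at hz
  rw [Finset.mem_biUnion] at hz
  obtain ⟨v, hv, hz⟩ := hz
  unfold enl at hv
  rw [Finset.mem_biUnion] at hv
  obtain ⟨q, hq, hv⟩ := hv
  rw [Finset.mem_image] at hv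
  obtain ⟨a, ha, rfl⟩ := hv
  rw [Finset.mem_product, Finset.mem_range, Finset.mem_range] at ha
  have a1 : (a.1 : ℝ) + 1 ≤ n := by exact_mod_cast ha.1
  have a2 : (a.2 : ℝ) + 1 ≤ n := by exact_mod_cast ha.2
  have a3 : (0 : ℝ) ≤ a.1 := by positivity
  have a4 : (0 : ℝ) ≤ a.2 := by positivity
  have e1 : (E6.pt z / n).re = z.1 / n := by
    rw [← Complex.ofReal_natCast, Complex.div_ofReal_re]; rfl
  have e2 : (E6.pt z / n).im = z.2 / n := by
    rw [← Complex.ofReal_natCast, Complex.div_ofReal_im]; rfl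
  rw [mem_region, e1, e2]
  refine ⟨q, hq, ?_⟩
  rw [le_div_iff₀ hn', div_le_iff₀ hn', le_div_iff₀ hn', div_le_iff₀ hn']
  simp only [Finset.mem_insert, Finset.mem_singleton] at hz
  rcases hz with rfl | rfl | rfl | rfl <;> push_cast <;> refine ⟨?_, ?_, ?_, ?_⟩ <;> nlinarith

theorem Dat.face_mem (S : Dat) : E6.face (S.p 0) S.r ∈ S.Q :=
  ((S.enc (S.p 0) S.r).1 ⟨0, rfl, by rw [zero_add]; exact S.step⟩).1

theorem Dat.b_mem (S : Dat) {n : ℕ} (hn : 0 < n) : S.b n ∈ sites (enl S.Q n) := by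
  have h1 : ⌊S.tp * n⌋₊ ≤ n := by
    have h2 : (⌊S.tp * n⌋₊ : ℝ) ≤ S.tp * n :=
      Nat.floor_le (mul_nonneg S.tp0.le (Nat.cast_nonneg n))
    have h3 : S.tp * n ≤ 1 * n := mul_le_mul_of_nonneg_right S.tp1.le (Nat.cast_nonneg n)
    have : (⌊S.tp * n⌋₊ : ℝ) ≤ n := by linarith
    exact_mod_cast this
  have := left_site hn S.face_mem (a := ⌊S.tp * n⌋₊) (b := 0) h1 (Nat.zero_le _)
  rw [Nat.cast_zero, zero_smul, add_zero] at this
  exact this

/-- The potentials `W_n` are uniformly Hölder and bounded. -/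
theorem hol_W (hE : I_EQ) (S : Dat) {f : ℂ → ℝ} (hf : S.FF f) :
    ∃ C β M : ℝ, 0 ≤ C ∧ 0 < β ∧ ∀ᶠ n : ℕ in atTop, Hol S.Q (fun n z => S.W n f z) C β M n := by
  obtain ⟨C, β, hβ, h⟩ := hE S f hf
  set d := Metric.diam (E6.region 1 S.Q) with hd
  have hb := (isCompact_region S.Q).isBounded
  refine ⟨max C 0, β, max C 0 * d ^ β, le_max_right _ _, hβ, ?_⟩
  filter_upwards [h, eventually_gt_atTop 0] with n hn hn0
  have hn' : (0 : ℝ) < n := by exact_mod_cast hn0
  have hhol : ∀ z ∈ sites (enl S.Q n), ∀ z' ∈ sites (enl S.Q n),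
      |S.W n f z - S.W n f z'| ≤ max C 0 * (‖E6.pt z - E6.pt z'‖ / n) ^ β := fun z hz z' hz' =>
    (hn z hz z' hz').trans (mul_le_mul_of_nonneg_right (le_max_left _ _)
      (Real.rpow_nonneg (by positivity) _))
  refine ⟨hn0, fun z hz => ?_, hhol⟩
  have h1 := hhol z hz (S.b n) (S.b_mem hn0)
  rw [W_base, sub_zero] at h1
  refine h1.trans (mul_le_mul_of_nonneg_left ?_ (le_max_right _ _))
  refine Real.rpow_le_rpow (by positivity) ?_ hβ.le
  have e1 : ‖E6.pt z - E6.pt (S.b n)‖ / n = dist (E6.pt z / n) (E6.pt (S.b n) / n) := by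
    rw [dist_eq_norm, ← sub_div, norm_div, Complex.norm_natCast]
  rw [e1]
  exact Metric.dist_le_diam_of_mem hb (site_region hn0 hz) (site_region hn0 (S.b_mem hn0))

theorem FF.smul {S : Dat} {f : ℂ → ℝ} (hf : S.FF f) (t : ℝ) : S.FF fun z => t * f z := by
  refine ⟨⟨contDiff_const.mul hf.1.1, hf.1.2.1.mul_left, ?_⟩, ?_⟩
  · exact (tsupport_mul_subset_right (f := fun _ => t) (g := f)).trans hf.1.2.2
  · rw [integral_const_mul, hf.2, mul_zero]

theorem lap_zero : lap (fun _ : ℂ => (0 : ℝ)) = fun _ => 0 := by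
  funext z
  unfold P198W.lap P198W.pd
  simp

theorem FF.zero (S : Dat) : S.FF fun _ => 0 := by
  refine ⟨⟨contDiff_const, HasCompactSupport.zero, ?_⟩, ?_⟩
  · have : tsupport (fun _ : ℂ => (0 : ℝ)) = ∅ := tsupport_eq_empty_iff.2 rfl
    rw [this]; exact empty_subset _
  · simp

theorem lap_ne {φ : ℂ → ℝ} {x : ℂ} (h : lap φ x ≠ 0) : x ∈ tsupport φ := by
  by_contra hx
  exact h (BVP.lap_eq_zero_of_notMem hx)

/-- **The limit of the potentials.** -/
theorem lim_W (hMOM : I_MOM) (hM : I_M2) (hE : I_EQ) (hN : I_NEU) (hB : I_BVP) (S : Dat)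
    {ψ g : ℂ → ℂ} (hP : Pair S.P ψ g) {f : ℂ → ℝ} (hf : S.FF f) :
    Tendsto (fun n : ℕ => S.HS n f f - S.V n f * S.U n f - sc * en g f f * S.V n f)
      atTop (𝓝 0) := by
  rw [tendsto_iff_ultrafilter]
  intro U hU
  obtain ⟨C, β, M, hC, hβ, hH⟩ := hol_W hE S hf
  obtain ⟨W, hW1, hW2, hW3⟩ := exists_lim hC hβ hH U hU
  -- the limit of `V_n`
  obtain ⟨C', hC'⟩ := path_bounds hM S hf
  have hVb : ∀ᶠ n in (U : Filter ℕ), S.V n f ∈ Icc (-C') C' := by
    refine hU (hC'.mono fun n hn => ?_)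
    have := (hn.1 1 (by simp)).1
    simp only [one_mul] at this
    exact abs_le.1 this
  obtain ⟨v, -, hv⟩ := (isCompact_Icc (a := -C') (b := C')).ultrafilter_le_nhds
    (U.map fun n => S.V n f) (by rw [le_principal_iff]; exact hVb)
  have hv' : Tendsto (fun n => S.V n f) U (𝓝 v) := hv
  have hWc : ContinuousOn W (E6.region 1 S.Q) := by
    intro x hx
    rw [Metric.continuousWithinAt_iff']
    intro ε hε
    have h4 : Tendsto (fun y : ℂ => C * ‖x - y‖ ^ β) (𝓝 x) (𝓝 (C * ‖x - x‖ ^ β)) := by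
      have h5 : Tendsto (fun y : ℂ => ‖x - y‖) (𝓝 x) (𝓝 ‖x - x‖) :=
        (tendsto_const_nhds.sub tendsto_id).norm
      exact (((Real.continuous_rpow_const hβ.le).tendsto _).comp h5).const_mul C
    rw [sub_self, norm_zero, Real.zero_rpow hβ.ne', mul_zero] at h4
    filter_upwards [(h4.eventually (gt_mem_nhds hε)).filter_mono nhdsWithin_le_nhds,
      self_mem_nhdsWithin] with y hy hy2
    rw [dist_comm, Real.dist_eq]
    exact (hW3 x hx y hy2).trans_lt hy
  have hWm : AEStronglyMeasurable W (volume.restrict (interior (E6.region 1 S.Q))) :=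
    (hWc.mono interior_subset).aestronglyMeasurable isOpen_interior.measurableSet
  -- the weak equation
  have hweak : ∀ φ, Test S.P φ → ∫ z, W z * lap φ z = -(sc * v) * ∫ z, f z * φ z := by
    intro φ hφ
    have hli : Integrable (lap φ) :=
      (BVP.cont_lap (hφ.1.of_le P198W.two_le_infty)).integrable_of_hasCompactSupport
        (BVP.hcs_lap hφ.2.1)
    have h1 := lim_pair hC hβ hH U hU hW1 hW2 hW3 hli (fun x hx => hφ.2.2 (lap_ne hx)) hWm
    have h2 := (hMOM S f φ hf hφ).mono_left hU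
    have h3 := (hMOM S (fun _ => 0) φ (FF.zero S) hφ).mono_left hU
    have h4 : Tendsto (fun n : ℕ => ∑ z ∈ sites (enl S.Q n), cms (lap φ) (1 / n) z * S.W n f z)
        U (𝓝 (-(sc * (∫ z, f z * φ z) * v))) := by
      have h5 : Tendsto (fun n : ℕ => (∑ z ∈ sites (S.D n), cms (lap φ) (1 / n) z * S.H n f z +
          sc * (∫ z, f z * φ z) * S.V n f) - sc * (∫ z, f z * φ z) * S.V n f -
          S.V n f * (∑ z ∈ sites (S.D n), cms (lap φ) (1 / n) z * S.H n (fun _ => 0) z +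
          sc * (∫ z, (0 : ℝ) * φ z) * S.V n (fun _ => 0))) U
          (𝓝 (0 - sc * (∫ z, f z * φ z) * v - v * 0)) :=
        (h2.sub (hv'.const_mul _)).sub (hv'.mul h3)
      have e : 0 - sc * (∫ z, f z * φ z) * v - v * 0 = -(sc * (∫ z, f z * φ z) * v) := by ring
      rw [e] at h5
      refine h5.congr fun n => ?_
      have e2 : ∑ z ∈ sites (enl S.Q n), cms (lap φ) (1 / n) z * S.W n f z =
          S.HS n (lap φ) f - S.V n f * S.U n (lap φ) := sum_W S n _ f
      rw [e2]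
      simp only [zero_mul, integral_zero, mul_zero, add_zero]
      unfold Dat.HS Dat.U
      ring
    have h6 := tendsto_nhds_unique h1 h4
    have h7 : ∫ z, W z * lap φ z = ∫ z, lap φ z * W z := by
      congr 1; funext z; ring
    rw [h7, h6]; ring
  -- the Neumann condition
  have hneu : NeuLim S W := by
    intro w r hw1 hw2 φ hφ1 hφ2 ε hε
    obtain ⟨r₀, hr0, hr⟩ := hN S f hf w r hw1 hw2 φ hφ1 hφ2 ε hε
    refine ⟨min r₀ 1, lt_min hr0 one_pos, fun h h1 h2 => ?_⟩
    have h3 := hU (hr h h1 (h2.trans_le (min_le_left _ _)))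
    have h4 := neu_lim hC hβ hH U hU hW1 hW3 hw1 hφ1.continuous (hφ2.trans sdiff_subset)
      h1.le (h2.le.trans (min_le_right _ _))
    exact le_of_tendsto h4.abs h3
  obtain ⟨c, hc⟩ := hB S ψ g hP f W (sc * v) hf.1 hWc hweak hneu
  -- the pairing with `f`
  have hfi : Integrable f := hf.1.1.continuous.integrable_of_hasCompactSupport hf.1.2.1
  have hfs : ∀ x, f x ≠ 0 → x ∈ interior (E6.region 1 S.Q) := fun x hx =>
    hf.1.2.2 (subset_tsupport f hx)
  have h8 := lim_pair hC hβ hH U hU hW1 hW2 hW3 hfi hfs hWm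
  have h9 := integrable_pair hW2 hfi hfs hWm
  have h10 : ∫ x, f x * W x = sc * v * en g f f := by
    have e1 : ∀ x, f x * W x - c * f x = sc * v * (f x * npot g f x) := by
      intro x
      by_cases h0 : f x = 0
      · simp [h0]
      · rw [hc x (hfs x h0)]; ring
    have e2 : ∫ x, (f x * W x - c * f x) = ∫ x, f x * W x := by
      rw [integral_sub h9 (hfi.const_mul c), integral_const_mul, hf.2, mul_zero, sub_zero]
    rw [← e2, integral_congr_ae (Eventually.of_forall e1), integral_const_mul]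
    rfl
  rw [h10] at h8
  have h11 : Tendsto (fun n : ℕ => ∑ z ∈ sites (enl S.Q n), cms f (1 / n) z * S.W n f z -
      sc * en g f f * S.V n f) U (𝓝 (sc * v * en g f f - sc * en g f f * v)) :=
    h8.sub (hv'.const_mul _)
  have e : sc * v * en g f f - sc * en g f f * v = 0 := by ring
  rw [e] at h11
  refine h11.congr fun n => ?_
  have e2 : ∑ z ∈ sites (enl S.Q n), cms f (1 / n) z * S.W n f z =
      S.HS n f f - S.V n f * S.U n f := sum_W S n _ f
  rw [e2]

theorem HS_smul (S : Dat) (n : ℕ) (t : ℝ) (f g : ℂ → ℝ) :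
    S.HS n (fun z => t * f z) g = t * S.HS n f g := by
  unfold Dat.HS
  rw [Finset.mul_sum]
  refine Finset.sum_congr rfl fun z _ => ?_
  rw [cms_smul]; ring

theorem U_smul (S : Dat) (n : ℕ) (t : ℝ) (f : ℂ → ℝ) :
    S.U n (fun z => t * f z) = t * S.U n f := HS_smul S n t f _

theorem npot_smul (g : ℂ → ℂ) (t : ℝ) (f : ℂ → ℝ) (z : ℂ) :
    npot g (fun z => t * f z) z = t * npot g f z := by
  unfold npot
  have : ∫ w, t * f w * BVP.nker (g z) (g w) = t * ∫ w, f w * BVP.nker (g z) (g w) := by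
    rw [← integral_const_mul]
    congr 1; funext w; ring
  rw [this]; ring

theorem en_smul (g : ℂ → ℂ) (t : ℝ) (f : ℂ → ℝ) :
    en g (fun z => t * f z) (fun z => t * f z) = t ^ 2 * en g f f := by
  unfold en
  rw [← integral_const_mul]
  congr 1; funext z
  rw [npot_smul]; ring

/-- The approximate differential equation. -/
theorem approx_ode (hMOM : I_MOM) (hM : I_M2) (hE : I_EQ) (hN : I_NEU) (hB : I_BVP) (S : Dat)
    {ψ g : ℂ → ℂ} (hP : Pair S.P ψ g) {f : ℂ → ℝ} (hf : S.FF f) (t : ℝ) :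
    Tendsto (fun n : ℕ => S.HS n f (fun z => t * f z) -
      (S.U n f + sc * t * en g f f) * S.V n (fun z => t * f z)) atTop (𝓝 0) := by
  rcases eq_or_ne t 0 with rfl | ht
  · refine tendsto_const_nhds.congr fun n => ?_
    simp only [zero_mul, mul_zero, add_zero, V_zero, mul_one]
    rw [U_eq, sub_self]
  · have h1 := (lim_W hMOM hM hE hN hB S hP (FF.smul hf t)).const_mul t⁻¹
    rw [mul_zero] at h1
    refine h1.congr fun n => ?_
    rw [HS_smul, U_smul, en_smul]
    field_simp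
    ring

end Vale.Agent.P167.CA
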