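import Vale.Agent.P167.H542.Cx
import Vale.Agent.P167.E6.Defs
import Vale.Agent.P167.BVP.Neum

/-!
# P167, CORE-ASM: the functionals `V` in lattice polygons (definitions and interfaces)

`Q` is the finite set of unit squares enclosed by the lattice polygon `p`; the axes are those of the
medial lattice of `P167/Defs` (squares `v`, sites = corners of squares). The domain `S.P` is the
interior of the union of the closed cells of `Q`. The discrete domain `S.D n` is the `n`-fold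
enlargement (mesh `1 / n`), literally `H825.enl Q n`. The base point is at the position `tp ∈ (0, 1)` of
the side from `p 0` to `p 1`, the base site `S.b n` is the one of `H825.S2aQ`.

All charges are neutral smooth functions with compact support in the open domain; the charge of a site
is the mass of its cell (upper right corner, as in `Vale.Agent.P167.charge` and `H638.cm`).
-/

namespace Vale.Agent.P167.CA

open MeasureTheory Filter Topology Set Complex
open Vale.Agent.P167.BR (VD sites)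
open Vale.Agent.P167.H542 (VDc XT)
open Vale.Agent.P167.BVP (Test npot)
open P198W (lap)
open scoped ContDiff

/-- The constant `s = 3 / π`. -/
noncomputable def sc : ℝ := 3 / Real.pi

/-- The squares of the `n`-fold enlargement of the cells of `Q`. -/
def enl (Q : Finset (ℤ × ℤ)) (n : ℕ) : Finset (ℤ × ℤ) :=
  Q.biUnion fun v => (Finset.range n ×ˢ Finset.range n).image fun a =>
    (n * v.1 + a.1, n * v.2 + a.2)

/-- The mass of the cell of the site `s` at mesh `δ`: the square with side `δ` and upper right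
corner `δ s`. -/
noncomputable def cms (f : ℂ → ℝ) (δ : ℝ) (s : ℤ × ℤ) : ℝ :=
  ∫ z in {z : ℂ | ⌊z.re / δ⌋ = s.1 - 1 ∧ ⌊z.im / δ⌋ = s.2 - 1}, f z

/-- A lattice polygon with a base point on the side from `p 0` to `p 1`. -/
structure Dat where
  l : ℕ
  p : ZMod l → ℤ × ℤ
  Q : Finset (ℤ × ℤ)
  poly : E6.IsPolygon p
  enc : E6.Encloses p Q
  r : Fin 4
  step : p 1 = p 0 + E6.dir r
  tp : ℝ
  tp0 : 0 < tp
  tp1 : tp < 1

namespace Dat

variable (S : Dat)

/-- The open domain. -/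
def P : Set ℂ := interior (E6.region 1 S.Q)

/-- The squares of the discrete domain of mesh `1 / n`. -/
def D (n : ℕ) : Finset (ℤ × ℤ) := enl S.Q n

/-- The base site. -/
noncomputable def b (n : ℕ) : ℤ × ℤ := (n : ℤ) • S.p 0 + (⌊S.tp * n⌋₊ : ℤ) • E6.dir S.r

/-- The base point. -/
noncomputable def bp : ℂ := E6.pt (S.p 0) + S.tp * E6.pt (E6.dir S.r)

/-- Neutral smooth charges. -/
def FF (f : ℂ → ℝ) : Prop := Test S.P f ∧ ∫ z, f z = 0

/-- `V_n(f)`. -/
noncomputable def V (n : ℕ) (f : ℂ → ℝ) : ℝ := VD (S.D n) (S.b n) (cms f (1 / n))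

/-- `H_n(f; z) = - ∂ V_n / ∂ f(z)`. -/
noncomputable def H (n : ℕ) (f : ℂ → ℝ) (z : ℤ × ℤ) : ℝ :=
  ∫ x, XT (S.D n) (S.b n) (cms f (1 / n)) z x ∂Vale.Agent.P167.μ

/-- `W_n(z) = H_n(f; z) - V_n(f) H_n(0; z)`. -/
noncomputable def W (n : ℕ) (f : ℂ → ℝ) (z : ℤ × ℤ) : ℝ :=
  S.H n f z - S.V n f * S.H n (fun _ => 0) z

/-- The linear functional `(f, U_n) = ∑ f H_n(0; .)`. -/
noncomputable def U (n : ℕ) (f : ℂ → ℝ) : ℝ :=
  ∑ z ∈ sites (S.D n), cms f (1 / n) z * S.H n (fun _ => 0) z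

end Dat

/-- A conformal map `ψ` from the upper half-plane onto `P` which is continuous and injective on the
closed half-plane and has a limit at infinity, and its inverse `g`. -/
structure Pair (P : Set ℂ) (ψ g : ℂ → ℂ) : Prop where
  diff : DifferentiableOn ℂ ψ {z | 0 < z.im}
  img : ψ '' {z | 0 < z.im} = P
  cont : ContinuousOn ψ {z | 0 ≤ z.im}
  inj : InjOn ψ {z | 0 ≤ z.im}
  infty : ∃ b, Tendsto ψ (Bornology.cobounded ℂ ⊓ 𝓟 {z | 0 ≤ z.im}) (𝓝 b)
  inv : ∀ z : ℂ, 0 < z.im → g (ψ z) = z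

/-- The energy `(h, N f)` for the Neumann kernel of the domain. -/
noncomputable def en (g : ℂ → ℂ) (h f : ℂ → ℝ) : ℝ := ∫ z, h z * npot g f z

/-! ### The inputs -/

/-- (MOM) First moments, for all test functions `ψ` (from (2A)). -/
def I_MOM : Prop :=
  ∀ (S : Dat) (f ψ : ℂ → ℝ), S.FF f → Test S.P ψ →
    Tendsto (fun n : ℕ => ∑ z ∈ sites (S.D n), cms (lap ψ) (1 / n) z * S.H n f z +
      sc * (∫ z, f z * ψ z) * S.V n f) atTop (𝓝 0)

/-- (M2) Uniform bounds for complex charges. -/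
def I_M2 : Prop :=
  ∀ (S : Dat) (f g : ℂ → ℝ), S.FF f → S.FF g → ∀ T : ℝ, ∃ C : ℝ, ∀ᶠ n : ℕ in atTop,
    ∀ t : ℝ, |t| ≤ T → ∀ s : ℂ, ‖s‖ ≤ T →
      ‖VDc (S.D n) (S.b n) (fun z => ((t * cms f (1 / n) z : ℝ) : ℂ) +
        s * (cms g (1 / n) z : ℂ))‖ ≤ C

/-- (EQ) Equicontinuity up to the boundary. -/
def I_EQ : Prop :=
  ∀ (S : Dat) (f : ℂ → ℝ), S.FF f → ∃ C β : ℝ, 0 < β ∧ ∀ᶠ n : ℕ in atTop,
    ∀ z ∈ sites (S.D n), ∀ z' ∈ sites (S.D n),
      |S.W n f z - S.W n f z'| ≤ C * (‖E6.pt z - E6.pt z'‖ / n) ^ β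

/-- (NEU) The Neumann condition along the unit sides of the polygon (away from their end points and
from the points at the position `tp`), averaged with a smooth function `φ`. -/
def I_NEU : Prop :=
  ∀ (S : Dat) (f : ℂ → ℝ), S.FF f → ∀ (w : ℤ × ℤ) (r : Fin 4), E6.face w r ∈ S.Q →
    E6.face w (r - 1) ∉ S.Q → ∀ φ : ℝ → ℝ, ContDiff ℝ ∞ φ → tsupport φ ⊆ Ioo 0 1 \ {S.tp} →
    ∀ ε > 0, ∃ r₀ > 0, ∀ h : ℝ, 0 < h → h < r₀ → ∀ᶠ n : ℕ in atTop,
      |(∑ x ∈ Finset.range n, φ (x / n) *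
        (S.W n f ((n : ℤ) • w + (x : ℤ) • E6.dir r + (⌊h * n⌋₊ : ℤ) • E6.dir (r + 1)) -
          S.W n f ((n : ℤ) • w + (x : ℤ) • E6.dir r))) / n| ≤ ε * h

/-! ### The output -/

/-- **The core in a polygon**: for every neutral smooth charge `f`,
`V_n(f) = exp (-(f, U_n) - (s/2) (f, N f)) + o(1)`, with bounded numbers `(f, U_n)`. -/
def I_CORE : Prop :=
  ∀ (S : Dat) (ψ g : ℂ → ℂ), Pair S.P ψ g → ∀ f : ℂ → ℝ, S.FF f →
    (∃ C : ℝ, ∀ᶠ n : ℕ in atTop, |S.U n f| ≤ C) ∧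
    Tendsto (fun n : ℕ => S.V n f - Real.exp (-S.U n f - sc / 2 * en g f f)) atTop (𝓝 0)

end Vale.Agent.P167.CA
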