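import Vale.Agent.P167.CA.Defs

/-!
# P167, CORE-ASM: cells and sites
-/

namespace Vale.Agent.P167.CA

open MeasureTheory Filter Topology Set Complex Metric
open Vale.Agent.P167.BR (VD sites)
open Vale.Agent.P167.BVP (Test npot)

/-- Points of an open cell determine the cell. -/
theorem cell_unique {v w : ℤ × ℤ} {z : ℂ} (h1 : (v.1 : ℝ) < z.re) (h2 : z.re < v.1 + 1)
    (h3 : (v.2 : ℝ) < z.im) (h4 : z.im < v.2 + 1) (k1 : (w.1 : ℝ) ≤ z.re) (k2 : z.re ≤ w.1 + 1)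
    (k3 : (w.2 : ℝ) ≤ z.im) (k4 : z.im ≤ w.2 + 1) : w = v := by
  have a1 : (w.1 : ℝ) < v.1 + 1 := by linarith
  have a2 : (v.1 : ℝ) < w.1 + 1 := by linarith
  have a3 : (w.2 : ℝ) < v.2 + 1 := by linarith
  have a4 : (v.2 : ℝ) < w.2 + 1 := by linarith
  have b1 : w.1 < v.1 + 1 := by exact_mod_cast a1
  have b2 : v.1 < w.1 + 1 := by exact_mod_cast a2
  have b3 : w.2 < v.2 + 1 := by exact_mod_cast a3
  have b4 : v.2 < w.2 + 1 := by exact_mod_cast a4
  exact Prod.ext (by omega) (by omega)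

theorem mem_region {Q : Finset (ℤ × ℤ)} {z : ℂ} : z ∈ E6.region 1 Q ↔
    ∃ f ∈ Q, (f.1 : ℝ) ≤ z.re ∧ z.re ≤ f.1 + 1 ∧ (f.2 : ℝ) ≤ z.im ∧ z.im ≤ f.2 + 1 := by
  simp [E6.region]

/-- Every closed cell through an interior point of the region is a cell of `Q`. -/
theorem mem_of_interior {Q : Finset (ℤ × ℤ)} {z : ℂ} (hz : z ∈ interior (E6.region 1 Q))
    {v : ℤ × ℤ} (h1 : (v.1 : ℝ) ≤ z.re) (h2 : z.re ≤ v.1 + 1) (h3 : (v.2 : ℝ) ≤ z.im)
    (h4 : z.im ≤ v.2 + 1) : v ∈ Q := by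
  obtain ⟨ε, hε, hb⟩ := Metric.isOpen_iff.1 isOpen_interior z hz
  -- the point moved towards the centre of the cell
  set c : ℂ := ⟨v.1 + 1 / 2, v.2 + 1 / 2⟩ with hc
  set t : ℝ := min (1 / 2) (ε / 4) with ht
  have ht0 : 0 < t := by positivity
  have ht1 : t ≤ 1 / 2 := min_le_left _ _
  have ht2 : t ≤ ε / 4 := min_le_right _ _
  set y : ℂ := ⟨(1 - t) * z.re + t * c.re, (1 - t) * z.im + t * c.im⟩ with hy
  have hcr : c.re = v.1 + 1 / 2 := rfl
  have hci : c.im = v.2 + 1 / 2 := rfl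
  have hyr : y.re = (1 - t) * z.re + t * c.re := rfl
  have hyi : y.im = (1 - t) * z.im + t * c.im := rfl
  have hyb : y ∈ ball z ε := by
    rw [mem_ball, dist_eq_norm]
    have e1 : (y - z).re = t * (c.re - z.re) := by rw [Complex.sub_re, hyr]; ring
    have e2 : (y - z).im = t * (c.im - z.im) := by rw [Complex.sub_im, hyi]; ring
    have a1 : |(y - z).re| ≤ t * 1 := by
      rw [e1, abs_mul, abs_of_pos ht0]
      refine mul_le_mul_of_nonneg_left ?_ ht0.le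
      rw [abs_le]; constructor <;> rw [hcr] <;> linarith
    have a2 : |(y - z).im| ≤ t * 1 := by
      rw [e2, abs_mul, abs_of_pos ht0]
      refine mul_le_mul_of_nonneg_left ?_ ht0.le
      rw [abs_le]; constructor <;> rw [hci] <;> linarith
    calc ‖y - z‖ ≤ |(y - z).re| + |(y - z).im| := Complex.norm_le_abs_re_add_abs_im _
      _ ≤ t * 1 + t * 1 := add_le_add a1 a2
      _ < ε := by linarith
  have hyin := interior_subset (hb hyb)
  rw [mem_region] at hyin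
  obtain ⟨w, hw, k1, k2, k3, k4⟩ := hyin
  have hwv : w = v := by
    refine cell_unique (z := y) ?_ ?_ ?_ ?_ k1 k2 k3 k4
    · rw [hyr, hcr]; nlinarith
    · rw [hyr, hcr]; nlinarith
    · rw [hyi, hci]; nlinarith
    · rw [hyi, hci]; nlinarith
  rwa [← hwv]

/-- The integer point below `n x`. -/
noncomputable def fs (n : ℕ) (x : ℂ) : ℤ × ℤ := (⌊x.re * n⌋, ⌊x.im * n⌋)

/-- The site of the cell of `x`. -/
noncomputable def cs (n : ℕ) (x : ℂ) : ℤ × ℤ := (⌊x.re * n⌋ + 1, ⌊x.im * n⌋ + 1)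

theorem mem_enl {Q : Finset (ℤ × ℤ)} {n : ℕ} (hn : 0 < n) {v a : ℤ × ℤ} (hv : v ∈ Q)
    (h1 : n * v.1 ≤ a.1) (h2 : a.1 < n * (v.1 + 1)) (h3 : n * v.2 ≤ a.2)
    (h4 : a.2 < n * (v.2 + 1)) : a ∈ enl Q n := by
  unfold enl
  rw [Finset.mem_biUnion]
  refine ⟨v, hv, ?_⟩
  rw [Finset.mem_image]
  have e1 : (n : ℤ) * (v.1 + 1) = n * v.1 + n := by ring
  have e2 : (n : ℤ) * (v.2 + 1) = n * v.2 + n := by ring
  refine ⟨((a.1 - n * v.1).toNat, (a.2 - n * v.2).toNat), ?_, ?_⟩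
  · rw [Finset.mem_product, Finset.mem_range, Finset.mem_range]
    constructor <;> dsimp only <;> omega
  · refine Prod.ext ?_ ?_
    · show (n : ℤ) * v.1 + ((a.1 - n * v.1).toNat : ℤ) = a.1
      rw [Int.toNat_of_nonneg (by linarith)]; ring
    · show (n : ℤ) * v.2 + ((a.2 - n * v.2).toNat : ℤ) = a.2
      rw [Int.toNat_of_nonneg (by linarith)]; ring

theorem mem_sites {D : Finset (ℤ × ℤ)} {v z : ℤ × ℤ} (hv : v ∈ D)
    (h : z = v ∨ z = (v.1 + 1, v.2) ∨ z = (v.1, v.2 + 1) ∨ z = (v.1 + 1, v.2 + 1)) :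
    z ∈ sites D := by
  unfold sites
  rw [Finset.mem_biUnion]
  refine ⟨v, hv, ?_⟩
  simp only [Finset.mem_insert, Finset.mem_singleton]
  exact h

/-- The integer points of the closed enlarged cells are sites. -/
theorem site_mem {Q : Finset (ℤ × ℤ)} {n : ℕ} (hn : 0 < n) {v a : ℤ × ℤ} (hv : v ∈ Q)
    (h1 : n * v.1 ≤ a.1) (h2 : a.1 ≤ n * (v.1 + 1)) (h3 : n * v.2 ≤ a.2)
    (h4 : a.2 ≤ n * (v.2 + 1)) : a ∈ sites (enl Q n) := by
  have e1 : (n : ℤ) * (v.1 + 1) = n * v.1 + n := by ring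
  have e2 : (n : ℤ) * (v.2 + 1) = n * v.2 + n := by ring
  have hn' : (0 : ℤ) < n := by exact_mod_cast hn
  rcases lt_or_eq_of_le h2 with k2 | k2 <;> rcases lt_or_eq_of_le h4 with k4 | k4
  · exact mem_sites (v := a) (mem_enl hn hv h1 k2 h3 k4) (Or.inl rfl)
  · refine mem_sites (v := (a.1, a.2 - 1)) (mem_enl hn hv h1 k2 ?_ ?_) ?_
    · dsimp only; omega
    · dsimp only; omega
    · right; right; left; ext <;> simp
  · refine mem_sites (v := (a.1 - 1, a.2)) (mem_enl hn hv ?_ ?_ h3 k4) ?_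
    · dsimp only; omega
    · dsimp only; omega
    · right; left; ext <;> simp
  · refine mem_sites (v := (a.1 - 1, a.2 - 1)) (mem_enl hn hv ?_ ?_ ?_ ?_) ?_
    · dsimp only; omega
    · dsimp only; omega
    · dsimp only; omega
    · dsimp only; omega
    · right; right; right; ext <;> simp

theorem fs_mem {Q : Finset (ℤ × ℤ)} {n : ℕ} (hn : 0 < n) {x : ℂ} (hx : x ∈ E6.region 1 Q) :
    fs n x ∈ sites (enl Q n) := by
  rw [mem_region] at hx
  obtain ⟨v, hv, h1, h2, h3, h4⟩ := hx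
  have hn' : (0 : ℝ) < n := by exact_mod_cast hn
  refine site_mem hn hv ?_ ?_ ?_ ?_
  · show (n : ℤ) * v.1 ≤ ⌊x.re * n⌋
    rw [Int.le_floor]; push_cast; nlinarith
  · show ⌊x.re * n⌋ ≤ (n : ℤ) * (v.1 + 1)
    have : (⌊x.re * n⌋ : ℝ) ≤ n * (v.1 + 1) := (Int.floor_le _).trans (by nlinarith)
    exact_mod_cast this
  · show (n : ℤ) * v.2 ≤ ⌊x.im * n⌋
    rw [Int.le_floor]; push_cast; nlinarith
  · show ⌊x.im * n⌋ ≤ (n : ℤ) * (v.2 + 1)
    have : (⌊x.im * n⌋ : ℝ) ≤ n * (v.2 + 1) := (Int.floor_le _).trans (by nlinarith)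
    exact_mod_cast this

theorem cs_mem {Q : Finset (ℤ × ℤ)} {n : ℕ} (hn : 0 < n) {x : ℂ}
    (hx : x ∈ interior (E6.region 1 Q)) : cs n x ∈ sites (enl Q n) := by
  have hn' : (0 : ℝ) < n := by exact_mod_cast hn
  have hv : (⌊x.re⌋, ⌊x.im⌋) ∈ Q := by
    refine mem_of_interior hx (Int.floor_le _) (Int.lt_floor_add_one _).le (Int.floor_le _)
      (Int.lt_floor_add_one _).le
  have h1 := Int.floor_le x.re
  have h2 := Int.lt_floor_add_one x.re
  have h3 := Int.floor_le x.im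
  have h4 := Int.lt_floor_add_one x.im
  refine mem_sites (v := fs n x) (mem_enl hn hv ?_ ?_ ?_ ?_) (Or.inr (Or.inr (Or.inr rfl)))
  · show (n : ℤ) * ⌊x.re⌋ ≤ ⌊x.re * n⌋
    rw [Int.le_floor]; push_cast; nlinarith
  · show ⌊x.re * n⌋ < (n : ℤ) * (⌊x.re⌋ + 1)
    rw [Int.floor_lt]; push_cast; nlinarith
  · show (n : ℤ) * ⌊x.im⌋ ≤ ⌊x.im * n⌋
    rw [Int.le_floor]; push_cast; nlinarith
  · show ⌊x.im * n⌋ < (n : ℤ) * (⌊x.im⌋ + 1)
    rw [Int.floor_lt]; push_cast; nlinarith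

theorem norm_fs {n : ℕ} (hn : 0 < n) (x : ℂ) : ‖E6.pt (fs n x) / n - x‖ ≤ 2 / n := by
  have hn' : (0 : ℝ) < n := by exact_mod_cast hn
  have e : E6.pt (fs n x) / n - x = (E6.pt (fs n x) - x * n) / n := by
    have : (n : ℂ) ≠ 0 := by exact_mod_cast hn.ne'
    field_simp
  rw [e, norm_div, Complex.norm_natCast]
  refine (div_le_div_iff_of_pos_right hn').2 ?_
  refine (Complex.norm_le_abs_re_add_abs_im _).trans ?_
  have a1 : |(E6.pt (fs n x) - x * n).re| ≤ 1 := by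
    have e1 : (E6.pt (fs n x) - x * n).re = ⌊x.re * n⌋ - x.re * n := by simp [E6.pt, fs]
    rw [e1, abs_le]
    constructor
    · linarith [Int.lt_floor_add_one (x.re * n)]
    · linarith [Int.floor_le (x.re * n)]
  have a2 : |(E6.pt (fs n x) - x * n).im| ≤ 1 := by
    have e1 : (E6.pt (fs n x) - x * n).im = ⌊x.im * n⌋ - x.im * n := by simp [E6.pt, fs]
    rw [e1, abs_le]
    constructor
    · linarith [Int.lt_floor_add_one (x.im * n)]
    · linarith [Int.floor_le (x.im * n)]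
  linarith

theorem norm_cs {n : ℕ} (hn : 0 < n) (x : ℂ) : ‖E6.pt (cs n x) / n - x‖ ≤ 2 / n := by
  have hn' : (0 : ℝ) < n := by exact_mod_cast hn
  have e : E6.pt (cs n x) / n - x = (E6.pt (cs n x) - x * n) / n := by
    have : (n : ℂ) ≠ 0 := by exact_mod_cast hn.ne'
    field_simp
  rw [e, norm_div, Complex.norm_natCast]
  refine (div_le_div_iff_of_pos_right hn').2 ?_
  refine (Complex.norm_le_abs_re_add_abs_im _).trans ?_
  have a1 : |(E6.pt (cs n x) - x * n).re| ≤ 1 := by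
    have e1 : (E6.pt (cs n x) - x * n).re = ⌊x.re * n⌋ + 1 - x.re * n := by simp [E6.pt, cs]
    rw [e1, abs_le]
    constructor
    · linarith [Int.lt_floor_add_one (x.re * n)]
    · linarith [Int.floor_le (x.re * n)]
  have a2 : |(E6.pt (cs n x) - x * n).im| ≤ 1 := by
    have e1 : (E6.pt (cs n x) - x * n).im = ⌊x.im * n⌋ + 1 - x.im * n := by simp [E6.pt, cs]
    rw [e1, abs_le]
    constructor
    · linarith [Int.lt_floor_add_one (x.im * n)]
    · linarith [Int.floor_le (x.im * n)]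
  linarith

/-! ### cell masses -/

/-- The cell of the site `s`. -/
def cl (n : ℕ) (s : ℤ × ℤ) : Set ℂ :=
  {z : ℂ | ⌊z.re / (1 / (n : ℝ))⌋ = s.1 - 1 ∧ ⌊z.im / (1 / (n : ℝ))⌋ = s.2 - 1}

theorem cms_eq (f : ℂ → ℝ) (n : ℕ) (s : ℤ × ℤ) : cms f (1 / n) s = ∫ z in cl n s, f z := rfl

theorem mem_cl {n : ℕ} {s : ℤ × ℤ} {z : ℂ} : z ∈ cl n s ↔ cs n z = s := by
  unfold cl cs
  simp only [Set.mem_ofPred_eq, div_div_eq_mul_div, div_one, Prod.ext_iff]
  constructor
  · rintro ⟨a, b⟩; exact ⟨by omega, by omega⟩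
  · rintro ⟨a, b⟩; exact ⟨by omega, by omega⟩

theorem measurableSet_cl (n : ℕ) (s : ℤ × ℤ) : MeasurableSet (cl n s) := by
  have h1 : Measurable (fun x : ℂ => ⌊x.re / (1 / (n : ℝ))⌋) :=
    Int.measurable_floor.comp (Complex.measurable_re.div_const _)
  have h2 : Measurable (fun x : ℂ => ⌊x.im / (1 / (n : ℝ))⌋) :=
    Int.measurable_floor.comp (Complex.measurable_im.div_const _)
  exact (h1 (measurableSet_singleton _)).inter (h2 (measurableSet_singleton _))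

/-- A sum over the sites, weighted by the cell masses, is an integral. -/
theorem sum_cms {Q : Finset (ℤ × ℤ)} {n : ℕ} (hn : 0 < n) {f : ℂ → ℝ} (hf : Integrable f)
    (hs : ∀ x, f x ≠ 0 → x ∈ interior (E6.region 1 Q)) (w : ℤ × ℤ → ℝ) :
    ∑ z ∈ sites (enl Q n), cms f (1 / n) z * w z = ∫ x, f x * w (cs n x) := by
  have h1 : ∀ z ∈ sites (enl Q n), cms f (1 / n) z * w z = ∫ x in cl n z, f x * w (cs n x) := by
    intro z _
    rw [cms_eq, ← integral_mul_const]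
    refine setIntegral_congr_fun (measurableSet_cl n z) fun x hx => ?_
    rw [mem_cl] at hx
    simp only [hx]
  rw [Finset.sum_congr rfl h1, ← integral_biUnion_finset]
  · refine setIntegral_eq_integral_of_forall_compl_eq_zero fun x hx => ?_
    by_cases h0 : f x = 0
    · rw [h0, zero_mul]
    · exfalso
      apply hx
      rw [mem_iUnion₂]
      exact ⟨cs n x, cs_mem hn (hs x h0), mem_cl.2 rfl⟩
  · intro z _
    exact measurableSet_cl n z
  · intro z _ z' _ hzz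
    rw [Function.onFun, Set.disjoint_left]
    intro x hx hx'
    rw [mem_cl] at hx hx'
    exact hzz (hx.symm.trans hx')
  · intro z _
    refine (hf.mul_const (w z)).integrableOn.congr_fun ?_ (measurableSet_cl n z)
    intro x hx
    rw [mem_cl] at hx
    simp only [hx]

theorem cms_smul (t : ℝ) (f : ℂ → ℝ) (δ : ℝ) (s : ℤ × ℤ) :
    cms (fun z => t * f z) δ s = t * cms f δ s := by
  unfold cms; rw [integral_const_mul]

theorem cms_zero (δ : ℝ) (s : ℤ × ℤ) : cms (fun _ => 0) δ s = 0 := by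
  unfold cms; simp

theorem cms_add {f g : ℂ → ℝ} (hf : Integrable f) (hg : Integrable g) (δ : ℝ) (s : ℤ × ℤ) :
    cms (fun z => f z + g z) δ s = cms f δ s + cms g δ s := by
  unfold cms; rw [integral_add hf.integrableOn hg.integrableOn]

theorem cms_sub {f g : ℂ → ℝ} (hf : Integrable f) (hg : Integrable g) (δ : ℝ) (s : ℤ × ℤ) :
    cms (fun z => f z - g z) δ s = cms f δ s - cms g δ s := by
  unfold cms; rw [integral_sub hf.integrableOn hg.integrableOn]

theorem Test.integrable {U : Set ℂ} {f : ℂ → ℝ} (h : Test U f) : Integrable f :=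
  h.1.continuous.integrable_of_hasCompactSupport h.2.1

theorem Test.mem {U : Set ℂ} {f : ℂ → ℝ} (h : Test U f) {x : ℂ} (hx : f x ≠ 0) : x ∈ U :=
  h.2.2 (subset_tsupport _ hx)

end Vale.Agent.P167.CA
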