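import Mathlib

/-!
# P167, CORE-ASM: the approximate linear differential equation
-/

namespace Vale.Agent.P167.CA

open MeasureTheory Filter Topology Set

/-- If `v' = -d`, `v 0 = 1` and `d - (u + a t) v → 0` pointwise and boundedly on `[0,1]`, then
`v 1 - exp (-u - a/2) → 0`. -/
theorem ode {v d : ℕ → ℝ → ℝ} {u : ℕ → ℝ} {a C : ℝ}
    (hv : ∀ n t, HasDerivAt (v n) (-d n t) t) (hd : ∀ n, Continuous (d n))
    (hb : ∀ᶠ n : ℕ in atTop, (∀ t : ℝ, |t| ≤ 1 → |v n t| ≤ C ∧ |d n t| ≤ C) ∧ |u n| ≤ C)
    (h0 : ∀ n, v n 0 = 1)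
    (hlim : ∀ t : ℝ, Tendsto (fun n => d n t - (u n + a * t) * v n t) atTop (𝓝 0)) :
    Tendsto (fun n => v n 1 - Real.exp (-u n - a / 2)) atTop (𝓝 0) := by
  have hvc : ∀ n, Continuous (v n) := fun n =>
    continuous_iff_continuousAt.2 fun t => (hv n t).continuousAt
  set ε : ℕ → ℝ → ℝ := fun n t => d n t - (u n + a * t) * v n t with hε
  have hεc : ∀ n, Continuous (ε n) := fun n => by
    have := hvc n
    have := hd n
    simp only [hε]
    fun_prop
  set E : ℕ → ℝ → ℝ := fun n t => Real.exp (u n * t + a * t ^ 2 / 2) with hE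
  have hEc : ∀ n, Continuous (E n) := fun n => by simp only [hE]; fun_prop
  have hEd : ∀ n t, HasDerivAt (E n) ((u n + a * t) * E n t) t := by
    intro n t
    have h1 : HasDerivAt (fun t : ℝ => u n * t + a * t ^ 2 / 2) (u n + a * t) t := by
      have a1 := (hasDerivAt_id t).const_mul (u n)
      have a2 := (((hasDerivAt_id t).fun_pow 2).const_mul a).div_const 2
      refine (a1.add a2).congr_deriv ?_
      simp
      ring
    have h2 := h1.exp
    refine h2.congr_deriv ?_
    simp only [hE]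
    ring
  have hF : ∀ n t, HasDerivAt (fun t => v n t * E n t) (-(ε n t * E n t)) t := by
    intro n t
    refine ((hv n t).fun_mul (hEd n t)).congr_deriv ?_
    simp only [hε]
    ring
  have hint : ∀ n, v n 1 * E n 1 - 1 = ∫ t in (0 : ℝ)..1, -(ε n t * E n t) := by
    intro n
    rw [intervalIntegral.integral_eq_sub_of_hasDerivAt (fun t _ => hF n t)
      (((hεc n).mul (hEc n)).neg.intervalIntegrable _ _)]
    simp [h0, hE]
  -- dominated convergence
  have hεlim : Tendsto (fun n => ∫ t in (0 : ℝ)..1, |ε n t|) atTop (𝓝 0) := by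
    have h3 := intervalIntegral.tendsto_integral_filter_of_dominated_convergence
      (F := fun n t => |ε n t|) (f := fun _ => (0 : ℝ)) (l := atTop) (a := 0) (b := 1)
      (μ := volume) (fun _ => C + (C + |a|) * C) ?_ ?_ ?_ ?_
    · simpa using h3
    · exact Eventually.of_forall fun n => (hεc n).abs.aestronglyMeasurable
    · filter_upwards [hb] with n hn
      refine Eventually.of_forall fun t ht => ?_
      rw [uIoc_of_le zero_le_one] at ht
      have ht' : |t| ≤ 1 := by rw [abs_of_pos ht.1]; exact ht.2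
      obtain ⟨b1, b2⟩ := hn.1 t ht'
      have hC : 0 ≤ C := (abs_nonneg _).trans b1
      rw [Real.norm_eq_abs, abs_abs]
      refine (abs_sub _ _).trans (add_le_add b2 ?_)
      rw [abs_mul]
      refine mul_le_mul ?_ b1 (abs_nonneg _) (by positivity)
      refine (abs_add_le _ _).trans (add_le_add hn.2 ?_)
      rw [abs_mul]
      exact mul_le_of_le_one_right (abs_nonneg _) ht'
    · exact intervalIntegrable_const
    · refine Eventually.of_forall fun t _ => ?_
      have := (hlim t).abs
      simpa using this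
  have hmain : Tendsto (fun n => Real.exp (C + |a|) * (Real.exp (C + |a|) *
      ∫ t in (0 : ℝ)..1, |ε n t|)) atTop (𝓝 0) := by
    simpa using (hεlim.const_mul (Real.exp (C + |a|))).const_mul (Real.exp (C + |a|))
  refine squeeze_zero_norm' ?_ hmain
  filter_upwards [hb] with n hn
  have hE1 : E n 1 = Real.exp (u n + a / 2) := by simp [hE]
  have hEpos : 0 < E n 1 := Real.exp_pos _
  have hinv : Real.exp (-u n - a / 2) = (E n 1)⁻¹ := by
    rw [hE1, ← Real.exp_neg]; congr 1; ring
  have hEle : (E n 1)⁻¹ ≤ Real.exp (C + |a|) := by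
    rw [← hinv, Real.exp_le_exp]
    have := (abs_le.1 hn.2).1
    have := neg_abs_le a
    linarith [abs_nonneg a]
  have e1 : v n 1 - Real.exp (-u n - a / 2) = (E n 1)⁻¹ * (v n 1 * E n 1 - 1) := by
    rw [hinv]; field_simp
  rw [e1, hint n, norm_mul, norm_inv, Real.norm_of_nonneg hEpos.le]
  refine mul_le_mul hEle ?_ (norm_nonneg _) (Real.exp_pos _).le
  rw [← intervalIntegral.integral_const_mul]
  refine intervalIntegral.norm_integral_le_of_norm_le zero_le_one
    (Eventually.of_forall fun t ht => ?_)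
    ((((hεc n).abs).const_mul _).intervalIntegrable _ _)
  rw [norm_neg, norm_mul, mul_comm, Real.norm_eq_abs (ε n t)]
  refine mul_le_mul_of_nonneg_right ?_ (abs_nonneg _)
  rw [Real.norm_of_nonneg (Real.exp_pos _).le, Real.exp_le_exp]
  have ht0 : 0 ≤ t := ht.1.le
  have ht1 : t ≤ 1 := ht.2
  have hC : |u n| ≤ C := hn.2
  have b1 : u n * t ≤ C := by
    calc u n * t ≤ |u n| * t := mul_le_mul_of_nonneg_right (le_abs_self _) ht0
      _ ≤ |u n| * 1 := mul_le_mul_of_nonneg_left ht1 (abs_nonneg _)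
      _ ≤ C := by linarith
  have b2 : a * t ^ 2 / 2 ≤ |a| := by
    have c1 : t ^ 2 ≤ 1 := by nlinarith
    have c2 : a * t ^ 2 ≤ |a| * t ^ 2 := mul_le_mul_of_nonneg_right (le_abs_self _) (by positivity)
    have c3 : |a| * t ^ 2 ≤ |a| * 1 := mul_le_mul_of_nonneg_left c1 (abs_nonneg _)
    linarith [abs_nonneg a]
  linarith

end Vale.Agent.P167.CA
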