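import Vale.Agent.P167.CA.Asm
import Vale.Agent.P167.CA.Ode

/-!
# P167, CORE-ASM: the core in a polygon and the neutral identities
-/

namespace Vale.Agent.P167.CA

open MeasureTheory Filter Topology Set Complex Metric
open Vale.Agent.P167.BVP (Test npot)

/-- **The core in a polygon.** -/
theorem core (hMOM : I_MOM) (hM : I_M2) (hE : I_EQ) (hN : I_NEU) (hB : I_BVP) : I_CORE := by
  intro S ψ g hP f hf
  obtain ⟨C, hC⟩ := path_bounds hM S hf
  refine ⟨⟨C, hC.mono fun n hn => hn.2⟩, ?_⟩
  have h := ode (v := fun n t => S.V n (fun z => t * f z))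
    (d := fun n t => S.HS n f (fun z => t * f z)) (u := fun n => S.U n f)
    (a := sc * en g f f) (C := C) (fun n t => hasDerivAt_V S n f t)
    (fun n => continuous_HS S n f) hC (fun n => by simp only [zero_mul]; exact V_zero S n)
    (fun t => by
      refine (approx_ode hMOM hM hE hN hB S hP hf t).congr fun n => ?_
      ring)
  refine h.congr fun n => ?_
  simp only [one_mul]
  congr 2
  ring

theorem U_neg_eq (S : Dat) (n : ℕ) (f : ℂ → ℝ) : S.U n (fun z => -f z) = -S.U n f := by
  have h := U_smul S n (-1) f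
  simpa using h

theorem FF.neg {S : Dat} {f : ℂ → ℝ} (hf : S.FF f) : S.FF fun z => -f z := by
  have := FF.smul hf (-1)
  simpa using this

theorem FF.sub {S : Dat} {f h : ℂ → ℝ} (hf : S.FF f) (hh : S.FF h) : S.FF fun z => f z - h z := by
  have hfi : Integrable f := hf.1.1.continuous.integrable_of_hasCompactSupport hf.1.2.1
  have hhi : Integrable h := hh.1.1.continuous.integrable_of_hasCompactSupport hh.1.2.1
  refine ⟨⟨hf.1.1.sub hh.1.1, hf.1.2.1.sub hh.1.2.1, ?_⟩, ?_⟩
  · exact (tsupport_sub f h).trans (union_subset hf.1.2.2 hh.1.2.2)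
  · rw [integral_sub hfi hhi, hf.2, hh.2, sub_zero]

theorem U_sub_eq {S : Dat} (n : ℕ) {f h : ℂ → ℝ} (hf : S.FF f) (hh : S.FF h) :
    S.U n (fun z => f z - h z) = S.U n f - S.U n h := by
  have hfi : Integrable f := hf.1.1.continuous.integrable_of_hasCompactSupport hf.1.2.1
  have hhi : Integrable h := hh.1.1.continuous.integrable_of_hasCompactSupport hh.1.2.1
  unfold Dat.U
  rw [← Finset.sum_sub_distrib]
  refine Finset.sum_congr rfl fun z _ => ?_
  rw [cms_sub hfi hhi]; ring

section

variable (hcore : I_CORE) {S : Dat} {ψ g : ℂ → ℂ} (hP : Pair S.P ψ g)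

include hcore hP

/-- `V_n(f)` is bounded above and bounded away from `0`. -/
theorem V_bounds {f : ℂ → ℝ} (hf : S.FF f) : ∃ c K : ℝ, 0 < c ∧
    ∀ᶠ n : ℕ in atTop, c ≤ S.V n f ∧ S.V n f ≤ K := by
  obtain ⟨⟨C, hC⟩, h⟩ := hcore S ψ g hP f hf
  set e := sc / 2 * en g f f with he
  refine ⟨Real.exp (-C - e) / 2, Real.exp (C - e) + 1, by positivity, ?_⟩
  have h1 := h.eventually (Metric.ball_mem_nhds 0 (ε := min (Real.exp (-C - e) / 2) 1)
    (by positivity))
  filter_upwards [hC, h1] with n hn h2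
  rw [dist_zero_right, Real.norm_eq_abs, lt_min_iff, abs_lt, abs_lt] at h2
  rw [abs_le] at hn
  have a1 : Real.exp (-C - e) ≤ Real.exp (-S.U n f - e) := Real.exp_le_exp.2 (by linarith)
  have a2 : Real.exp (-S.U n f - e) ≤ Real.exp (C - e) := Real.exp_le_exp.2 (by linarith)
  constructor <;> linarith [h2.1.1, h2.2.2]

/-- `V_n(f) = (1 + o(1)) exp (…)`. -/
theorem V_ratio {f : ℂ → ℝ} (hf : S.FF f) :
    Tendsto (fun n : ℕ => S.V n f * Real.exp (S.U n f + sc / 2 * en g f f)) atTop (𝓝 1) := by
  obtain ⟨⟨C, hC⟩, h⟩ := hcore S ψ g hP f hf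
  set e := sc / 2 * en g f f with he
  have h1 : Tendsto (fun n : ℕ => (S.V n f - Real.exp (-S.U n f - e)) *
      Real.exp (S.U n f + e)) atTop (𝓝 0) := by
    refine squeeze_zero_norm' (a := fun n => |S.V n f - Real.exp (-S.U n f - e)| *
      Real.exp (C + e)) ?_ ?_
    · filter_upwards [hC] with n hn
      rw [norm_mul, Real.norm_eq_abs, Real.norm_of_nonneg (Real.exp_pos _).le]
      refine mul_le_mul_of_nonneg_left (Real.exp_le_exp.2 ?_) (abs_nonneg _)
      linarith [(abs_le.1 hn).2]
    · have := h.abs.mul_const (Real.exp (C + e))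
      simpa using this
  have h2 := h1.const_add 1
  rw [add_zero] at h2
  refine h2.congr fun n => ?_
  have : Real.exp (-S.U n f - e) * Real.exp (S.U n f + e) = 1 := by
    rw [← Real.exp_add]; simp
  rw [sub_mul, this]; ring

/-- **First identity**: `V(f) V(-f) → exp (-s (f, N f))`. -/
theorem V_mul_neg {f : ℂ → ℝ} (hf : S.FF f) :
    Tendsto (fun n : ℕ => S.V n f * S.V n (fun z => -f z)) atTop
      (𝓝 (Real.exp (-(sc * en g f f)))) := by
  have h1 := V_ratio hcore hP hf
  have h2 := V_ratio hcore hP (FF.neg hf)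
  have h3 := (h1.mul h2).mul_const (Real.exp (-(sc * en g f f)))
  rw [one_mul, one_mul] at h3
  refine h3.congr fun n => ?_
  have e1 : en g (fun z => -f z) (fun z => -f z) = en g f f := by
    have := en_smul g (-1) f
    simpa using this
  rw [U_neg_eq, e1]
  have e2 : Real.exp (S.U n f + sc / 2 * en g f f) * Real.exp (-S.U n f + sc / 2 * en g f f) *
      Real.exp (-(sc * en g f f)) = 1 := by
    rw [← Real.exp_add, ← Real.exp_add, Real.exp_eq_one_iff]; ring
  calc _ = S.V n f * S.V n (fun z => -f z) * (Real.exp (S.U n f + sc / 2 * en g f f) *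
        Real.exp (-S.U n f + sc / 2 * en g f f) * Real.exp (-(sc * en g f f))) := by ring
    _ = _ := by rw [e2, mul_one]

/-- **Second identity**: `V(f - h) V(h) / V(f) → exp (…)`, polarised form. -/
theorem V_quot {f h : ℂ → ℝ} (hf : S.FF f) (hh : S.FF h) :
    Tendsto (fun n : ℕ => S.V n (fun z => f z - h z) * S.V n h / S.V n f) atTop
      (𝓝 (Real.exp (sc / 2 * (en g f f - en g h h -
        en g (fun z => f z - h z) (fun z => f z - h z))))) := by
  have h1 := V_ratio hcore hP hf
  have h2 := V_ratio hcore hP hh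
  have h3 := V_ratio hcore hP (FF.sub hf hh)
  have h4 := ((h3.mul h2).div h1 one_ne_zero).mul_const (Real.exp (sc / 2 * (en g f f - en g h h -
        en g (fun z => f z - h z) (fun z => f z - h z))))
  rw [one_mul, div_one, one_mul] at h4
  obtain ⟨c, K, hc, hb⟩ := V_bounds hcore hP hf
  refine h4.congr' ?_
  filter_upwards [hb] with n hn
  simp only [Pi.div_apply]
  rw [U_sub_eq n hf hh]
  set A := en g f f
  set B := en g h h
  set D := en g (fun z => f z - h z) (fun z => f z - h z)
  have hV : S.V n f ≠ 0 := (hc.trans_le hn.1).ne'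
  have e2 : Real.exp (S.U n f - S.U n h + sc / 2 * D) * Real.exp (S.U n h + sc / 2 * B) *
      Real.exp (sc / 2 * (A - B - D)) = Real.exp (S.U n f + sc / 2 * A) := by
    rw [← Real.exp_add, ← Real.exp_add]; congr 1; ring
  rw [div_mul_eq_mul_div, div_eq_div_iff (mul_ne_zero hV (Real.exp_pos _).ne') hV, ← e2]
  ring

end

end Vale.Agent.P167.CA
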