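import Vale.Agent.P167.H411.B7.Ca

/-!
# P167, CORE-ASM: symmetry of the Neumann energy
-/

namespace Vale.Agent.P167.CA

open MeasureTheory Filter Topology Set Complex Metric
open Vale.Agent.P167.BVP (Test npot nker kreg Conf)
open scoped ContDiff ComplexConjugate

theorem nker_symm (a b : ℂ) : nker a b = nker b a := by
  unfold nker
  have h1 : ‖a - b‖ = ‖b - a‖ := norm_sub_rev a b
  have h2 : ‖a - conj b‖ = ‖b - conj a‖ := by
    rw [← BVP.norm_sub_conj, norm_sub_rev]
  rw [h1, h2]

/-- The logarithmic kernel is integrable against the product of two test functions. -/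
theorem log_prod {h f : ℂ → ℝ} (hh : Continuous h) (hhc : HasCompactSupport h) (hf : Continuous f)
    (hfc : HasCompactSupport f) :
    Integrable (fun p : ℂ × ℂ => h p.1 * f p.2 * Real.log ‖p.1 - p.2‖)
      ((volume : Measure ℂ).prod volume) := by
  obtain ⟨M, hM⟩ := hf.bounded_above_of_compact_support hfc
  have hM0 : 0 ≤ M := (norm_nonneg _).trans (hM 0)
  obtain ⟨R1, hR1⟩ := hhc.isCompact.isBounded.subset_closedBall (0 : ℂ)
  obtain ⟨R2, hR2⟩ := hfc.isCompact.isBounded.subset_closedBall (0 : ℂ)
  set k : ℂ → ℝ := (closedBall (0 : ℂ) (R1 + R2)).indicator fun t => M * |Real.log ‖t‖| with hk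
  have hki : Integrable k := by
    rw [hk, integrable_indicator_iff isClosed_closedBall.measurableSet]
    exact (BVP.Fund.lea_abslog.integrableOn_isCompact (isCompact_closedBall 0 _)).const_mul M
  have hhi : Integrable fun z => |h z| := (hh.integrable_of_hasCompactSupport hhc).abs
  have h1 : Integrable (fun p : ℂ × ℂ => |h p.2| * k (p.1 - p.2))
      ((volume : Measure ℂ).prod volume) :=
    hhi.convolution_integrand (ContinuousLinearMap.mul ℝ ℝ) hki
  have h2 : Integrable (fun p : ℂ × ℂ => |h p.1| * k (p.2 - p.1))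
      ((volume : Measure ℂ).prod volume) := h1.swap
  refine h2.mono' ?_ (Eventually.of_forall fun p => ?_)
  · have m1 : Measurable fun p : ℂ × ℂ => h p.1 * f p.2 :=
      (hh.measurable.comp measurable_fst).mul (hf.measurable.comp measurable_snd)
    have m2 : Measurable fun p : ℂ × ℂ => Real.log ‖p.1 - p.2‖ :=
      Real.measurable_log.comp (measurable_fst.sub measurable_snd).norm
    exact (m1.mul m2).aestronglyMeasurable
  · rw [norm_mul, norm_mul, Real.norm_eq_abs, Real.norm_eq_abs, Real.norm_eq_abs]
    by_cases hz : p.1 ∈ tsupport h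
    · by_cases hw : p.2 ∈ tsupport f
      · have a1 : ‖p.1‖ ≤ R1 := by simpa using hR1 hz
        have a2 : ‖p.2‖ ≤ R2 := by simpa using hR2 hw
        have a3 : p.2 - p.1 ∈ closedBall (0 : ℂ) (R1 + R2) := by
          rw [mem_closedBall, dist_zero_right]
          exact (norm_sub_le _ _).trans (by linarith)
        rw [hk, indicator_of_mem a3, norm_sub_rev p.2 p.1, mul_assoc]
        refine mul_le_mul_of_nonneg_left ?_ (abs_nonneg _)
        exact mul_le_mul_of_nonneg_right (hM _) (abs_nonneg _)
      · rw [image_eq_zero_of_notMem_tsupport hw, abs_zero, mul_zero, zero_mul]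
        refine mul_nonneg (abs_nonneg _) ?_
        rw [hk]
        exact indicator_nonneg (fun t _ => mul_nonneg hM0 (abs_nonneg _)) _
    · rw [image_eq_zero_of_notMem_tsupport hz]
      simp

theorem kreg_prod {D : Set ℂ} {g : ℂ → ℂ} (hg : Conf D g) {h f : ℂ → ℝ} (hh : Test D h)
    (hf : Test D f) : Integrable (fun p : ℂ × ℂ => h p.1 * f p.2 * kreg g p.1 p.2)
      ((volume : Measure ℂ).prod volume) := by
  have hc : Continuous fun p : ℂ × ℂ => h p.1 * f p.2 * kreg g p.1 p.2 := by
    refine BVP.cont_ext (S := D ×ˢ D) (K := tsupport h ×ˢ tsupport f) (hg.isOpen.prod hg.isOpen)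
      ((isClosed_tsupport h).prod (isClosed_tsupport f)) (prod_mono hh.2.2 hf.2.2) ?_ ?_
    · refine ContinuousOn.mul ?_ (BVP.kreg_cont hg)
      exact ((hh.1.continuous.comp continuous_fst).mul
        (hf.1.continuous.comp continuous_snd)).continuousOn
    · intro p hp
      rw [mem_prod, not_and_or] at hp
      rcases hp with h' | h'
      · rw [image_eq_zero_of_notMem_tsupport h']; ring
      · rw [image_eq_zero_of_notMem_tsupport h']; ring
  refine hc.integrable_of_hasCompactSupport ?_
  refine HasCompactSupport.intro (hh.2.1.isCompact.prod hf.2.1.isCompact) fun p hp => ?_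
  rw [mem_prod, not_and_or] at hp
  rcases hp with h' | h'
  · rw [image_eq_zero_of_notMem_tsupport h']; ring
  · rw [image_eq_zero_of_notMem_tsupport h']; ring

theorem ae_ne : ∀ᵐ p : ℂ × ℂ ∂((volume : Measure ℂ).prod volume), p.1 ≠ p.2 := by
  have hm : MeasurableSet {p : ℂ × ℂ | p.1 ≠ p.2} :=
    (isOpen_ne_fun continuous_fst continuous_snd).measurableSet
  rw [Measure.ae_prod_iff_ae_ae hm]
  refine Eventually.of_forall fun x => ?_
  rw [ae_iff]
  simp

theorem nker_prod {D : Set ℂ} {g : ℂ → ℂ} (hg : Conf D g) {h f : ℂ → ℝ} (hh : Test D h)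
    (hf : Test D f) : Integrable (fun p : ℂ × ℂ => h p.1 * f p.2 * nker (g p.1) (g p.2))
      ((volume : Measure ℂ).prod volume) := by
  refine ((log_prod hh.1.continuous hh.2.1 hf.1.continuous hf.2.1).add
    (kreg_prod hg hh hf)).congr ?_
  filter_upwards [ae_ne] with p hp
  simp only [Pi.add_apply]
  by_cases hz : p.1 ∈ tsupport h
  · by_cases hw : p.2 ∈ tsupport f
    · have hz' := hh.2.2 hz
      have hw' := hf.2.2 hw
      have e : g p.1 - g p.2 = (p.1 - p.2) * dslope g p.2 p.1 := by
        have := sub_smul_dslope g p.2 p.1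
        rw [smul_eq_mul] at this
        exact this.symm
      unfold nker kreg
      rw [e, norm_mul, Real.log_mul (norm_ne_zero_iff.2 (sub_ne_zero.2 hp))
        (norm_ne_zero_iff.2 (BVP.dslope_ne_zero hg hz' hw'))]
      ring
    · rw [image_eq_zero_of_notMem_tsupport hw]; ring
  · rw [image_eq_zero_of_notMem_tsupport hz]; ring

theorem en_double {g : ℂ → ℂ} {h f : ℂ → ℝ} :
    en g h f = -(1 / (2 * Real.pi)) * ∫ z, ∫ w, h z * f w * nker (g z) (g w) := by
  unfold en npot
  rw [← integral_const_mul]
  refine integral_congr_ae (Eventually.of_forall fun z => ?_)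
  simp only
  have e : (∫ w, h z * f w * nker (g z) (g w)) = h z * ∫ w, f w * nker (g z) (g w) := by
    rw [← integral_const_mul]
    exact integral_congr_ae (Eventually.of_forall fun w => by ring)
  rw [e]; ring

/-- **Symmetry of the energy.** -/
theorem en_symm {D : Set ℂ} {g : ℂ → ℂ} (hg : Conf D g) {h f : ℂ → ℝ} (hh : Test D h)
    (hf : Test D f) : en g h f = en g f h := by
  rw [en_double, en_double, integral_integral_swap (nker_prod hg hh hf)]
  congr 1
  refine integral_congr_ae (Eventually.of_forall fun w => ?_)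
  refine integral_congr_ae (Eventually.of_forall fun z => ?_)
  simp only
  rw [nker_symm (g z) (g w)]; ring

end Vale.Agent.P167.CA
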