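import Vale.Agent.P167.CA.Core
import Vale.Agent.P167.CA.Sym
import Vale.Agent.P167.BVP.Poly

/-!
# P167, CORE-ASM: the core in a polygon from the four inputs, and the neutral identities
-/

namespace Vale.Agent.P167.CA

open MeasureTheory Filter Topology Set Complex Metric
open Vale.Agent.P167.BVP (Test npot)

/-- The boundary value problem is solved. -/
theorem i_bvp : I_BVP := fun S _ _ h _ _ _ hf hW hw hN => BVP.poly_bvp' S h hf hW hw hN

/-- **The core in a polygon**, from the four probabilistic inputs. -/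
theorem i_core (hMOM : I_MOM) (hM : I_M2) (hE : I_EQ) (hN : I_NEU) : I_CORE :=
  core hMOM hM hE hN i_bvp

section

variable {S : Dat} {ψ g : ℂ → ℂ} (hP : Pair S.P ψ g)

include hP

theorem en_sub_sub {f h : ℂ → ℝ} (hf : S.FF f) (hh : S.FF h) :
    en g (fun z => f z - h z) (fun z => f z - h z) = en g f f - 2 * en g f h + en g h h := by
  have hg := (BVP.pair_of hP).conf
  have e : (fun z => f z - h z) = fun z => 1 * f z + (-1) * h z := by funext z; ring
  have ht := H411.B7.test_lin hf.1 hh.1 1 (-1)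
  rw [e]
  have h1 := H411.B7.en_lin_left hg hf.1 hh.1 ht 1 (-1)
  have h2 := H411.B7.en_lin_right hg hf.1 hf.1 hh.1 1 (-1)
  have h3 := H411.B7.en_lin_right hg hh.1 hf.1 hh.1 1 (-1)
  have h4 := en_symm hg hh.1 hf.1
  rw [H411.B7.en_eq] at *
  rw [h1, h2, h3, h4]
  ring

theorem en_sub_left {f h k : ℂ → ℝ} (hf : S.FF f) (hh : S.FF h) (hk : S.FF k) :
    en g (fun z => f z - h z) k = en g f k - en g h k := by
  have hg := (BVP.pair_of hP).conf
  have e : (fun z => f z - h z) = fun z => 1 * f z + (-1) * h z := by funext z; ring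
  rw [e]
  have h1 := H411.B7.en_lin_left hg hf.1 hh.1 hk.1 1 (-1)
  rw [H411.B7.en_eq] at *
  rw [h1]
  ring

/-- **Second identity**: `V(f - h) V(h) / V(f) → exp (s (f - h, N h))`. -/
theorem V_quot' (hcore : I_CORE) {f h : ℂ → ℝ} (hf : S.FF f) (hh : S.FF h) :
    Tendsto (fun n : ℕ => S.V n (fun z => f z - h z) * S.V n h / S.V n f) atTop
      (𝓝 (Real.exp (sc * en g (fun z => f z - h z) h))) := by
  have h1 := V_quot hcore hP hf hh
  rw [en_sub_sub hP hf hh] at h1
  rw [en_sub_left hP hf hh hh]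
  have e : sc / 2 * (en g f f - en g h h - (en g f f - 2 * en g f h + en g h h)) =
      sc * (en g f h - en g h h) := by ring
  rwa [e] at h1

end

end Vale.Agent.P167.CA
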