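import Vale.Agent.P167.CA.Cell

/-!
# P167, CORE-ASM: limits of Hölder functions on the sites along an ultrafilter
-/

namespace Vale.Agent.P167.CA

open MeasureTheory Filter Topology Set Complex Metric
open Vale.Agent.P167.BR (VD sites)

/-- `w n` is bounded by `M` and Hölder on the sites of the enlargement, for the index `n`. -/
structure Hol (Q : Finset (ℤ × ℤ)) (w : ℕ → ℤ × ℤ → ℝ) (C β M : ℝ) (n : ℕ) : Prop where
  pos : 0 < n
  bd : ∀ z ∈ sites (enl Q n), |w n z| ≤ M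
  hol : ∀ z ∈ sites (enl Q n), ∀ z' ∈ sites (enl Q n),
    |w n z - w n z'| ≤ C * (‖E6.pt z - E6.pt z'‖ / n) ^ β

theorem isCompact_region (Q : Finset (ℤ × ℤ)) : IsCompact (E6.region 1 Q) := by
  have h : E6.region 1 Q = ⋃ f ∈ Q, (Icc (f.1 : ℝ) (f.1 + 1) ×ℂ Icc (f.2 : ℝ) (f.2 + 1)) := by
    ext z
    rw [mem_region]
    simp only [mem_iUnion, Complex.mem_reProdIm, mem_Icc, exists_prop]
    constructor
    · rintro ⟨f, hf, a, b, c, d⟩; exact ⟨f, hf, ⟨a, b⟩, c, d⟩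
    · rintro ⟨f, hf, ⟨a, b⟩, c, d⟩; exact ⟨f, hf, a, b, c, d⟩
  rw [h]
  exact Q.finite_toSet.isCompact_biUnion fun f _ => isCompact_Icc.reProdIm isCompact_Icc

/-- The modulus of continuity at real points. -/
theorem Hol.close {Q : Finset (ℤ × ℤ)} {w : ℕ → ℤ × ℤ → ℝ} {C β M : ℝ} {n : ℕ}
    (h : Hol Q w C β M n) (hC : 0 ≤ C) (hβ : 0 < β) {z z' : ℤ × ℤ} (hz : z ∈ sites (enl Q n))
    (hz' : z' ∈ sites (enl Q n)) {x x' : ℂ} {d e : ℝ} (h1 : ‖E6.pt z / n - x‖ ≤ e)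
    (h2 : ‖E6.pt z' / n - x'‖ ≤ e) (h3 : ‖x - x'‖ ≤ d) :
    |w n z - w n z'| ≤ C * (d + 2 * e) ^ β := by
  have hn : (0 : ℝ) < n := by exact_mod_cast h.pos
  refine (h.hol z hz z' hz').trans (mul_le_mul_of_nonneg_left ?_ hC)
  refine Real.rpow_le_rpow (by positivity) ?_ hβ.le
  have e1 : ‖E6.pt z - E6.pt z'‖ / n = ‖E6.pt z / n - E6.pt z' / n‖ := by
    rw [← sub_div, norm_div, Complex.norm_natCast]
  rw [e1]
  have e2 : E6.pt z / n - E6.pt z' / n = (E6.pt z / n - x) + (x - x') - (E6.pt z' / n - x') := by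
    ring
  rw [e2]
  calc ‖(E6.pt z / n - x) + (x - x') - (E6.pt z' / n - x')‖
      ≤ ‖(E6.pt z / n - x) + (x - x')‖ + ‖E6.pt z' / n - x'‖ := norm_sub_le _ _
    _ ≤ (‖E6.pt z / n - x‖ + ‖x - x'‖) + ‖E6.pt z' / n - x'‖ := by
        gcongr; exact norm_add_le _ _
    _ ≤ d + 2 * e := by linarith

/-- The limit function along an ultrafilter. -/
theorem exists_lim {Q : Finset (ℤ × ℤ)} {w : ℕ → ℤ × ℤ → ℝ} {C β M : ℝ} (hC : 0 ≤ C) (hβ : 0 < β)
    (h : ∀ᶠ n : ℕ in atTop, Hol Q w C β M n) (U : Ultrafilter ℕ) (hU : (U : Filter ℕ) ≤ atTop) :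
    ∃ W : ℂ → ℝ,
      (∀ x ∈ E6.region 1 Q, Tendsto (fun n => w n (fs n x)) U (𝓝 (W x))) ∧
      (∀ x ∈ E6.region 1 Q, |W x| ≤ M) ∧
      (∀ x ∈ E6.region 1 Q, ∀ y ∈ E6.region 1 Q, |W x - W y| ≤ C * ‖x - y‖ ^ β) := by
  have hU' : ∀ᶠ n in (U : Filter ℕ), Hol Q w C β M n := hU h
  have hne : (U : Filter ℕ).NeBot := U.neBot
  have h1 : ∀ x : ℂ, ∃ a : ℝ, x ∈ E6.region 1 Q → Tendsto (fun n => w n (fs n x)) U (𝓝 a) := by
    intro x
    by_cases hx : x ∈ E6.region 1 Q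
    · have h2 : ∀ᶠ n in (U : Filter ℕ), w n (fs n x) ∈ Icc (-M) M := by
        filter_upwards [hU'] with n hn
        exact abs_le.1 (hn.bd _ (fs_mem hn.pos hx))
      have h3 : IsCompact (Icc (-M) M) := isCompact_Icc
      obtain ⟨a, _, ha⟩ := h3.ultrafilter_le_nhds (U.map fun n => w n (fs n x))
        (by rw [le_principal_iff]; exact h2)
      exact ⟨a, fun _ => ha⟩
    · exact ⟨0, fun h => absurd h hx⟩
  choose W hW using h1
  refine ⟨W, hW, fun x hx => ?_, fun x hx y hy => ?_⟩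
  · refine le_of_tendsto ((hW x hx).abs) ?_
    filter_upwards [hU'] with n hn using hn.bd _ (fs_mem hn.pos hx)
  · have h4 : Tendsto (fun n => |w n (fs n x) - w n (fs n y)|) U (𝓝 |W x - W y|) :=
      ((hW x hx).sub (hW y hy)).abs
    have h5 : Tendsto (fun n : ℕ => C * (‖x - y‖ + 2 * (2 / (n : ℝ))) ^ β) U
        (𝓝 (C * (‖x - y‖ + 2 * 0) ^ β)) := by
      have h6 : Tendsto (fun n : ℕ => (2 : ℝ) / (n : ℝ)) atTop (𝓝 0) :=
        tendsto_const_div_atTop_nhds_zero_nat 2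
      have h7 := ((h6.mono_left hU).const_mul 2).const_add ‖x - y‖
      exact (((Real.continuous_rpow_const hβ.le).tendsto _).comp h7).const_mul C
    rw [mul_zero, add_zero] at h5
    refine le_of_tendsto_of_tendsto h4 h5 ?_
    filter_upwards [hU'] with n hn
    exact hn.close hC hβ (fs_mem hn.pos hx) (fs_mem hn.pos hy) (norm_fs hn.pos x)
      (norm_fs hn.pos y) le_rfl

/-- Uniform convergence along the ultrafilter. -/
theorem lim_unif {Q : Finset (ℤ × ℤ)} {w : ℕ → ℤ × ℤ → ℝ} {C β M : ℝ} (hC : 0 ≤ C) (hβ : 0 < β)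
    (h : ∀ᶠ n : ℕ in atTop, Hol Q w C β M n) (U : Ultrafilter ℕ) (hU : (U : Filter ℕ) ≤ atTop)
    {W : ℂ → ℝ} (h1 : ∀ x ∈ E6.region 1 Q, Tendsto (fun n => w n (fs n x)) U (𝓝 (W x)))
    (h3 : ∀ x ∈ E6.region 1 Q, ∀ y ∈ E6.region 1 Q, |W x - W y| ≤ C * ‖x - y‖ ^ β)
    {ε : ℝ} (hε : 0 < ε) :
    ∃ δ > 0, ∀ᶠ n in (U : Filter ℕ), ∀ z ∈ sites (enl Q n), ∀ x ∈ E6.region 1 Q,
      ‖E6.pt z / n - x‖ ≤ δ → |w n z - W x| ≤ ε := by
  have hU' : ∀ᶠ n in (U : Filter ℕ), Hol Q w C β M n := hU h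
  -- choose `δ` with `C (8 δ) ^ β ≤ ε / 3`
  obtain ⟨δ, hδ, hδ1⟩ : ∃ δ > 0, C * (8 * δ) ^ β ≤ ε / 3 := by
    have h4 : Tendsto (fun δ : ℝ => C * (8 * δ) ^ β) (𝓝[>] 0) (𝓝 (C * (8 * 0) ^ β)) := by
      have h5 : Tendsto (fun δ : ℝ => 8 * δ) (𝓝[>] 0) (𝓝 (8 * 0)) :=
        (tendsto_id.const_mul 8).mono_left nhdsWithin_le_nhds
      exact (((Real.continuous_rpow_const hβ.le).tendsto _).comp h5).const_mul C
    rw [mul_zero, Real.zero_rpow hβ.ne', mul_zero] at h4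
    obtain ⟨δ, a, b⟩ := ((h4.eventually (ge_mem_nhds (by positivity : (0 : ℝ) < ε / 3))).and
      self_mem_nhdsWithin).exists
    exact ⟨δ, b, a⟩
  refine ⟨δ, hδ, ?_⟩
  obtain ⟨t, ht, hcov⟩ := (isCompact_region Q).elim_nhds_subcover (fun x => ball x δ)
    fun x _ => ball_mem_nhds x hδ
  have h6 : ∀ᶠ n in (U : Filter ℕ), ∀ y ∈ t, |w n (fs n y) - W y| ≤ ε / 3 := by
    rw [Filter.eventually_all_finset]
    intro y hy
    have h7 : Tendsto (fun n => |w n (fs n y) - W y|) U (𝓝 0) := by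
      have := ((h1 y (ht y hy)).sub_const (W y)).abs
      simpa using this
    exact h7.eventually (ge_mem_nhds (by positivity))
  have h8 : ∀ᶠ n : ℕ in (U : Filter ℕ), (2 : ℝ) / n ≤ δ := by
    have h9 : Tendsto (fun n : ℕ => (2 : ℝ) / (n : ℝ)) atTop (𝓝 0) :=
      tendsto_const_div_atTop_nhds_zero_nat 2
    exact (h9.mono_left hU).eventually (ge_mem_nhds hδ)
  filter_upwards [hU', h6, h8] with n hn hn6 hn8 z hz x hx hzx
  obtain ⟨y, hy, hxy⟩ := mem_iUnion₂.1 (hcov hx)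
  rw [mem_ball, dist_eq_norm] at hxy
  have a1 : |w n z - w n (fs n y)| ≤ ε / 3 := by
    refine (hn.close hC hβ hz (fs_mem hn.pos (ht y hy)) (x := x) (x' := y) (d := δ) (e := δ) hzx
      ((norm_fs hn.pos y).trans hn8) hxy.le).trans ?_
    refine (mul_le_mul_of_nonneg_left ?_ hC).trans hδ1
    exact Real.rpow_le_rpow (by positivity) (by linarith) hβ.le
  have a2 := hn6 y hy
  have a3 : |W y - W x| ≤ ε / 3 := by
    refine (h3 y (ht y hy) x hx).trans ((mul_le_mul_of_nonneg_left ?_ hC).trans hδ1)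
    refine Real.rpow_le_rpow (norm_nonneg _) ?_ hβ.le
    rw [norm_sub_rev]; linarith
  have e : w n z - W x = (w n z - w n (fs n y)) + (w n (fs n y) - W y) + (W y - W x) := by ring
  rw [e]
  calc _ ≤ |w n z - w n (fs n y)| + |w n (fs n y) - W y| + |W y - W x| := abs_add_three _ _ _
    _ ≤ ε := by linarith

theorem interior_sub {Q : Finset (ℤ × ℤ)} : interior (E6.region 1 Q) ⊆ E6.region 1 Q :=
  interior_subset

theorem integrable_pair {Q : Finset (ℤ × ℤ)} {M : ℝ} {W : ℂ → ℝ}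
    (h2 : ∀ x ∈ E6.region 1 Q, |W x| ≤ M)
    {f : ℂ → ℝ} (hf : Integrable f) (hs : ∀ x, f x ≠ 0 → x ∈ interior (E6.region 1 Q))
    (hm : AEStronglyMeasurable W (volume.restrict (interior (E6.region 1 Q)))) :
    Integrable fun x => f x * W x := by
  have h4 : IntegrableOn (fun x => f x * W x) (interior (E6.region 1 Q)) := by
    refine (hf.integrableOn.norm.mul_const M).mono' (hf.integrableOn.aestronglyMeasurable.mul hm) ?_
    refine (ae_restrict_iff' isOpen_interior.measurableSet).2 (Eventually.of_forall fun x hx => ?_)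
    rw [norm_mul]
    exact mul_le_mul_of_nonneg_left (h2 x (interior_subset hx)) (norm_nonneg _)
  have h5 := (integrable_indicator_iff isOpen_interior.measurableSet).2 h4
  refine h5.congr (Eventually.of_forall fun x => ?_)
  by_cases hx : x ∈ interior (E6.region 1 Q)
  · simp only [indicator_of_mem hx]
  · have : f x = 0 := by by_contra hne; exact hx (hs x hne)
    simp only [indicator_of_notMem hx, this, zero_mul]

/-- Pairings with cell masses converge along the ultrafilter. -/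
theorem lim_pair {Q : Finset (ℤ × ℤ)} {w : ℕ → ℤ × ℤ → ℝ} {C β M : ℝ} (hC : 0 ≤ C) (hβ : 0 < β)
    (h : ∀ᶠ n : ℕ in atTop, Hol Q w C β M n) (U : Ultrafilter ℕ) (hU : (U : Filter ℕ) ≤ atTop)
    {W : ℂ → ℝ} (h1 : ∀ x ∈ E6.region 1 Q, Tendsto (fun n => w n (fs n x)) U (𝓝 (W x)))
    (h2 : ∀ x ∈ E6.region 1 Q, |W x| ≤ M)
    (h3 : ∀ x ∈ E6.region 1 Q, ∀ y ∈ E6.region 1 Q, |W x - W y| ≤ C * ‖x - y‖ ^ β)
    {f : ℂ → ℝ} (hf : Integrable f) (hs : ∀ x, f x ≠ 0 → x ∈ interior (E6.region 1 Q))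
    (hm : AEStronglyMeasurable W (volume.restrict (interior (E6.region 1 Q)))) :
    Tendsto (fun n => ∑ z ∈ sites (enl Q n), cms f (1 / n) z * w n z) U
      (𝓝 (∫ x, f x * W x)) := by
  have hU' : ∀ᶠ n in (U : Filter ℕ), Hol Q w C β M n := hU h
  have hfW : Integrable fun x => f x * W x := integrable_pair h2 hf hs hm
  rw [Metric.tendsto_nhds]
  intro ε hε
  set I := ∫ x, |f x| with hI
  have hI0 : 0 ≤ I := integral_nonneg fun _ => abs_nonneg _
  obtain ⟨δ, hδ, hu⟩ := lim_unif hC hβ h U hU h1 h3 (ε := ε / (2 * (I + 1))) (by positivity)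
  have h8 : ∀ᶠ n : ℕ in (U : Filter ℕ), (2 : ℝ) / n ≤ δ := by
    have h9 : Tendsto (fun n : ℕ => (2 : ℝ) / (n : ℝ)) atTop (𝓝 0) :=
      tendsto_const_div_atTop_nhds_zero_nat 2
    exact (h9.mono_left hU).eventually (ge_mem_nhds hδ)
  filter_upwards [hU', hu, h8] with n hn hnu hn8
  rw [sum_cms hn.pos hf hs, dist_eq_norm]
  have hfw : Integrable fun x => f x * w n (cs n x) := by
    have hmm : Measurable fun x => w n (cs n x) := by
      have a1 : Measurable (fun x : ℂ => ⌊x.re * n⌋ + 1) :=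
        (Int.measurable_floor.comp (Complex.measurable_re.mul_const _)).add_const 1
      have a2 : Measurable (fun x : ℂ => ⌊x.im * n⌋ + 1) :=
        (Int.measurable_floor.comp (Complex.measurable_im.mul_const _)).add_const 1
      exact (measurable_of_countable (w n)).comp (a1.prodMk a2)
    refine (hf.norm.mul_const M).mono' (hf.aestronglyMeasurable.mul hmm.aestronglyMeasurable)
      (Eventually.of_forall fun x => ?_)
    rw [norm_mul]
    by_cases h0 : f x = 0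
    · simp [h0]
    · exact mul_le_mul_of_nonneg_left (hn.bd _ (cs_mem hn.pos (hs x h0))) (norm_nonneg _)
  rw [← integral_sub hfw hfW]
  have h10 : ∀ x, ‖f x * w n (cs n x) - f x * W x‖ ≤ |f x| * (ε / (2 * (I + 1))) := by
    intro x
    rw [← mul_sub, norm_mul, Real.norm_eq_abs, Real.norm_eq_abs]
    by_cases h0 : f x = 0
    · simp [h0]
    · have hx := hs x h0
      exact mul_le_mul_of_nonneg_left (hnu _ (cs_mem hn.pos hx) x (interior_subset hx)
        ((norm_cs hn.pos x).trans hn8)) (abs_nonneg _)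
  calc ‖∫ x, (f x * w n (cs n x) - f x * W x)‖
      ≤ ∫ x, |f x| * (ε / (2 * (I + 1))) :=
        norm_integral_le_of_norm_le (hf.abs.mul_const _) (Eventually.of_forall h10)
    _ = I * (ε / (2 * (I + 1))) := by rw [integral_mul_const]
    _ < ε := by
        have h11 : I * (ε / (2 * (I + 1))) = ε * (I / (2 * (I + 1))) := by ring
        rw [h11]
        have h12 : I / (2 * (I + 1)) < 1 := by
          rw [div_lt_one (by positivity)]; linarith
        nlinarith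

end Vale.Agent.P167.CA
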