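import Vale.Agent.P167.CA.Asm
import Vale.Agent.P167.H542.Step
import Vale.Agent.P167.H638.LDefs

/-!
# P167, CORE-ASM: from (2a) to the first moments
-/

namespace Vale.Agent.P167.CA

open MeasureTheory Filter Topology Set Complex Metric
open Vale.Agent.P167.BR (VD sites)
open Vale.Agent.P167.H542 (VDc XT)
open Vale.Agent.P167.BVP (Test npot)
open Vale.Agent.P167.H825 (Box)
open Vale.Agent.P167.H638.L (obox)
open P198W (lap)
open scoped ContDiff Manifold

/-! ### Test functions -/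

theorem Test.add' {U : Set ℂ} {f g : ℂ → ℝ} (hf : Test U f) (hg : Test U g) :
    Test U fun z => f z + g z :=
  ⟨hf.1.add hg.1, hf.2.1.add hg.2.1,
    (tsupport_add f g).trans (union_subset hf.2.2 hg.2.2)⟩

theorem Test.lap {U : Set ℂ} {ψ : ℂ → ℝ} (h : Test U ψ) : Test U (P198W.lap ψ) := by
  have h1 : ∀ e, ContDiff ℝ ∞ (P198W.pd e (P198W.pd e ψ)) := fun e =>
    P198W.contDiff_pd_infty (P198W.contDiff_pd_infty h.1 e) e
  refine ⟨(h1 1).add (h1 I), BVP.hcs_lap h.2.1, ?_⟩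
  refine Subset.trans (closure_minimal ?_ (isClosed_tsupport ψ)) h.2.2
  intro x hx
  exact lap_ne hx

theorem integral_lap {ψ : ℂ → ℝ} (h1 : ContDiff ℝ 2 ψ) (h2 : HasCompactSupport ψ) :
    ∫ z, lap ψ z = 0 := by
  have h := BVP.green (v := fun _ => 1) contDiff_const h1 h2
  have e : lap (fun _ : ℂ => (1 : ℝ)) = fun _ => 0 := by
    funext z
    unfold P198W.lap P198W.pd
    simp
  rw [e] at h
  simpa using h

theorem FF.lap {S : Dat} {ψ : ℂ → ℝ} (h : Test S.P ψ) : S.FF (P198W.lap ψ) :=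
  ⟨Test.lap h, integral_lap (h.1.of_le P198W.two_le_infty) h.2.1⟩

theorem lap_add {f g : ℂ → ℝ} (hf : ContDiff ℝ 2 f) (hg : ContDiff ℝ 2 g) (z : ℂ) :
    lap (fun w => f w + g w) z = lap f z + lap g z := by
  have h1 : lap (fun w => f w - (0 - g w)) z = lap f z - lap (fun w => 0 - g w) z :=
    P198W.lap_sub hf.contDiffAt (contDiff_const.sub hg).contDiffAt
  have h2 : lap (fun w => 0 - g w) z = lap (fun _ => 0) z - lap g z :=
    P198W.lap_sub (f := fun _ => 0) contDiff_const.contDiffAt hg.contDiffAt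
  rw [h2, lap_zero] at h1
  have e : (fun w => f w + g w) = fun w => f w - (0 - g w) := by funext w; ring
  rw [e, h1]; ring

/-! ### Boxes in general position -/

theorem pick {B : Set ℝ} (hB : B.Countable) {a b : ℝ} (h : a < b) : ∃ y, a < y ∧ y < b ∧ y ∉ B := by
  obtain ⟨y, hy, h1⟩ := (hB.dense_compl ℝ).exists_between h
  exact ⟨y, h1.1, h1.2, hy⟩

theorem pick2 (t x : ℝ) {ε : ℝ} (hε : 0 < ε) : ∃ l r : ℝ, x - ε < l ∧ l < x ∧ x < r ∧ r < x + ε ∧
    Int.fract l ≠ 0 ∧ Int.fract r ≠ 0 ∧ Int.fract l ≠ Int.fract r ∧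
    (∀ i : ℤ, l ≠ i + t ∧ l ≠ i - t) ∧ ∀ i : ℤ, r ≠ i + t ∧ r ≠ i - t := by
  set B : Set ℝ := range (fun i : ℤ => (i : ℝ)) ∪ (range (fun i : ℤ => (i : ℝ) + t) ∪
    range fun i : ℤ => (i : ℝ) - t) with hB
  have hBc : B.Countable :=
    (countable_range _).union ((countable_range _).union (countable_range _))
  have hB' : ∀ y, y ∉ B → Int.fract y ≠ 0 ∧ ∀ i : ℤ, y ≠ i + t ∧ y ≠ i - t := by
    intro y hy
    rw [hB, mem_union, mem_union, not_or, not_or] at hy
    refine ⟨fun h => hy.1 ⟨⌊y⌋, ?_⟩, fun i => ⟨fun h => hy.2.1 ⟨i, h.symm⟩,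
      fun h => hy.2.2 ⟨i, h.symm⟩⟩⟩
    have := Int.floor_add_fract y
    simp only
    linarith
  obtain ⟨l, l1, l2, l3⟩ := pick hBc (show x - ε < x by linarith)
  obtain ⟨r, r1, r2, r3⟩ := pick (hBc.union (countable_range fun i : ℤ => (i : ℝ) + l))
    (show x < x + ε by linarith)
  rw [mem_union, not_or] at r3
  refine ⟨l, r, l1, l2, r1, r2, (hB' l l3).1, (hB' r r3.1).1, ?_, (hB' l l3).2, (hB' r r3.1).2⟩
  intro h
  apply r3.2
  refine ⟨⌊r⌋ - ⌊l⌋, ?_⟩
  have h1 := Int.floor_add_fract r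
  have h2 := Int.floor_add_fract l
  push_cast
  linarith

theorem exists_box (S : Dat) {x : ℂ} (hx : x ∈ S.P) : ∃ b : Box, b.Ok S.Q ∧
    (∀ i : ℤ, ∀ y ∈ ({b.xl, b.xr, b.yb, b.yt} : Set ℝ), y ≠ i + S.tp ∧ y ≠ i - S.tp) ∧
    x ∈ obox b := by
  obtain ⟨ε, hε, hb⟩ := Metric.isOpen_iff.1 (show IsOpen S.P from isOpen_interior) x hx
  obtain ⟨xl, xr, a1, a2, a3, a4, a5, a6, a7, a8, a9⟩ := pick2 S.tp x.re (ε := ε / 4) (by positivity)
  obtain ⟨yb, yt, b1, b2, b3, b4, b5, b6, b7, b8, b9⟩ := pick2 S.tp x.im (ε := ε / 4) (by positivity)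
  refine ⟨⟨xl, xr, yb, yt⟩, ⟨by linarith, by linarith, ?_, ⟨a5, a6, a7⟩, ⟨b5, b6, b7⟩⟩, ?_,
    a2, a3, b2, b3⟩
  · intro a c1 c2 c3 c4
    simp only at c1 c2 c3 c4
    refine hb ?_
    rw [mem_ball, dist_eq_norm]
    refine lt_of_le_of_lt (Complex.norm_le_abs_re_add_abs_im _) ?_
    have d1 : |(⟨a.1, a.2⟩ - x : ℂ).re| ≤ ε / 4 := by
      rw [Complex.sub_re, abs_le]; constructor <;> simp only <;> linarith
    have d2 : |(⟨a.1, a.2⟩ - x : ℂ).im| ≤ ε / 4 := by
      rw [Complex.sub_im, abs_le]; constructor <;> simp only <;> linarith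
    linarith
  · intro i y hy
    simp only [mem_insert_iff, mem_singleton_iff] at hy
    rcases hy with rfl | rfl | rfl | rfl
    exacts [a8 i, a9 i, b8 i, b9 i]

theorem isOpen_obox (b : Box) : IsOpen (obox b) := by
  have h1 : obox b = {z : ℂ | b.xl < z.re} ∩ {z : ℂ | z.re < b.xr} ∩ {z : ℂ | b.yb < z.im} ∩
      {z : ℂ | z.im < b.yt} := by
    ext z
    simp [obox, and_assoc]
  rw [h1]
  exact (((isOpen_lt continuous_const Complex.continuous_re).inter
    (isOpen_lt Complex.continuous_re continuous_const)).inter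
    (isOpen_lt continuous_const Complex.continuous_im)).inter
    (isOpen_lt Complex.continuous_im continuous_const)

theorem obox_sub {S : Dat} {b : Box} (hb : b.Ok S.Q) : obox b ⊆ S.P := by
  rintro z ⟨h1, h2, h3, h4⟩
  exact hb.sub (z.re, z.im) h1.le h2.le h3.le h4.le

/-! ### The moments -/

/-- The statement of `I_MOM` for a test function. -/
def MomAt (S : Dat) (f ψ : ℂ → ℝ) : Prop :=
  Tendsto (fun n : ℕ => ∑ z ∈ sites (S.D n), cms (lap ψ) (1 / n) z * S.H n f z +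
      sc * (∫ z, f z * ψ z) * S.V n f) atTop (𝓝 0)

theorem MomAt.add {S : Dat} {f ψ φ : ℂ → ℝ} (hf : S.FF f) (hψ : Test S.P ψ) (hφ : Test S.P φ)
    (h1 : MomAt S f ψ) (h2 : MomAt S f φ) : MomAt S f fun z => ψ z + φ z := by
  unfold MomAt at *
  have h := h1.add h2
  rw [add_zero] at h
  refine h.congr fun n => ?_
  have e1 : lap (fun z => ψ z + φ z) = fun z => lap ψ z + lap φ z := by
    funext z
    exact lap_add (hψ.1.of_le P198W.two_le_infty) (hφ.1.of_le P198W.two_le_infty) z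
  have e2 : ∫ z, f z * (ψ z + φ z) = (∫ z, f z * ψ z) + ∫ z, f z * φ z := by
    simp_rw [mul_add]
    refine integral_add ?_ ?_
    · exact (hf.1.1.continuous.mul hψ.1.continuous).integrable_of_hasCompactSupport
        hψ.2.1.mul_left
    · exact (hf.1.1.continuous.mul hφ.1.continuous).integrable_of_hasCompactSupport
        hφ.2.1.mul_left
  rw [e2, e1]
  have e3 : ∀ z, cms (fun z => lap ψ z + lap φ z) (1 / n) z =
      cms (lap ψ) (1 / n) z + cms (lap φ) (1 / n) z := fun z =>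
    cms_add (Test.integrable (Test.lap hψ)) (Test.integrable (Test.lap hφ)) _ z
  simp_rw [e3, add_mul]
  rw [Finset.sum_add_distrib]
  ring

theorem momAt_zero (S : Dat) (f : ℂ → ℝ) : MomAt S f fun _ => 0 := by
  unfold MomAt
  rw [lap_zero]
  simp only [cms_zero, zero_mul, Finset.sum_const_zero, mul_zero, integral_zero, add_zero]
  exact tendsto_const_nhds

/-- Test functions in a box. -/
theorem momAt_box (h2a : H638.L.S_2a) (hM : I_M2) (S : Dat) {f : ℂ → ℝ} (hf : S.FF f) {b : Box}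
    (hb : b.Ok S.Q) (hb' : ∀ i : ℤ, ∀ y ∈ ({b.xl, b.xr, b.yb, b.yt} : Set ℝ),
      y ≠ i + S.tp ∧ y ≠ i - S.tp) {ψ : ℂ → ℝ} (hψ : Test (obox b) ψ) : MomAt S f ψ := by
  have hψP : Test S.P ψ := ⟨hψ.1, hψ.2.1, hψ.2.2.trans (obox_sub hb)⟩
  have hg := FF.lap hψP
  obtain ⟨C, hC⟩ := hM S f (lap ψ) hf hg 1
  set A : ℝ := ∫ z, f z * ψ z with hA
  set E : ℝ := ∫ z, ((fderiv ℝ ψ z 1) ^ 2 + (fderiv ℝ ψ z I) ^ 2) with hE
  have key := H542.two_a_mom (D := fun n => S.D n) (p := fun n => S.b n)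
    (f := fun n : ℕ => cms f (1 / n)) (g := fun n : ℕ => cms (lap ψ) (1 / n)) (r := 1) (C := C)
    one_pos ?_ (α := fun s => Real.exp (sc * s * A - sc / 2 * s ^ 2 * E)) (α' := sc * A) (by simp)
    ?_ ?_
  · exact key
  · filter_upwards [hC] with n hn s hs
    have := hn 1 (by simp) s hs.le
    simpa using this
  · have h1 : HasDerivAt (fun s : ℝ => sc * s * A - sc / 2 * s ^ 2 * E) (sc * A) 0 := by
      have a1 : HasDerivAt (fun s : ℝ => sc * s * A) (sc * 1 * A) 0 :=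
        ((hasDerivAt_id (0 : ℝ)).const_mul sc).mul_const A
      have a2 : HasDerivAt (fun s : ℝ => sc / 2 * s ^ 2 * E) (sc / 2 * (2 * 0 ^ (2 - 1) * 1) * E) 0 :=
        (((hasDerivAt_id (0 : ℝ)).pow 2).const_mul (sc / 2)).mul_const E
      exact (a1.fun_sub a2).congr_deriv (by ring)
    have h2 := h1.exp
    simpa using h2
  · intro s _
    have h1 := h2a S f hf b hb hb' ψ hψ s
    refine h1.congr fun n => ?_
    unfold Dat.V
    have e : cms (fun z => f z + s * lap ψ z) (1 / n) =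
        fun z => cms f (1 / n) z + s * cms (lap ψ) (1 / n) z := by
      funext z
      rw [cms_add (Test.integrable hf.1) ((Test.integrable hg.1).const_mul s), cms_smul]
    rw [e]

/-- **From (2a) to the first moments**, 638's `S_mom`. -/
theorem s_mom : H638.L.S_mom := by
  intro h2a hM S f ψ hf hψ
  change MomAt S f ψ
  set K := tsupport ψ with hK
  have hKc : IsCompact K := hψ.2.1
  have hbox : ∀ x : ℂ, ∃ b : Box, x ∈ K → b.Ok S.Q ∧
      (∀ i : ℤ, ∀ y ∈ ({b.xl, b.xr, b.yb, b.yt} : Set ℝ), y ≠ i + S.tp ∧ y ≠ i - S.tp) ∧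
      x ∈ obox b := by
    intro x
    by_cases hx : x ∈ K
    · obtain ⟨b, hb⟩ := exists_box S (hψ.2.2 hx)
      exact ⟨b, fun _ => hb⟩
    · exact ⟨⟨0, 0, 0, 0⟩, fun h => absurd h hx⟩
  choose bx hbx using hbox
  obtain ⟨t, ht1, ht2⟩ := hKc.elim_nhds_subcover (fun x => obox (bx x))
    fun x hx => (isOpen_obox _).mem_nhds (hbx x hx).2.2
  obtain ⟨ρ, hρ⟩ := SmoothPartitionOfUnity.exists_isSubordinate (modelWithCornersSelf ℝ ℂ)
    (isClosed_tsupport ψ) (fun i : t => obox (bx i)) (fun i => isOpen_obox _) (by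
      intro x hx
      obtain ⟨i, hi⟩ := mem_iUnion.1 (ht2 hx)
      obtain ⟨hi1, hi2⟩ := mem_iUnion.1 hi
      exact mem_iUnion.2 ⟨⟨i, hi1⟩, hi2⟩)
  have hρs : ∀ i : t, Test (obox (bx i)) fun z => ρ i z * ψ z := by
    intro i
    refine ⟨(ρ i).contMDiff.contDiff.mul hψ.1, hψ.2.1.mul_left, ?_⟩
    exact (tsupport_mul_subset_left (f := fun z => ρ i z) (g := ψ)).trans (hρ i)
  have hρP : ∀ i : t, Test S.P fun z => ρ i z * ψ z := fun i =>
    ⟨(hρs i).1, (hρs i).2.1, (hρs i).2.2.trans (obox_sub (hbx i (ht1 i i.2)).1)⟩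
  have hsum : ∀ s : Finset t, Test S.P (fun z => ∑ i ∈ s, ρ i z * ψ z) ∧
      MomAt S f fun z => ∑ i ∈ s, ρ i z * ψ z := by
    classical
    intro s
    induction s using Finset.induction_on with
    | empty =>
      simp only [Finset.sum_empty]
      exact ⟨(FF.zero S).1, momAt_zero S f⟩
    | insert a s ha ih =>
      simp only [Finset.sum_insert ha]
      obtain ⟨hb1, hb2, -⟩ := hbx a (ht1 a a.2)
      exact ⟨Test.add' (hρP a) ih.1, MomAt.add hf (hρP a) ih.1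
        (momAt_box h2a hM S hf hb1 hb2 (hρs a)) ih.2⟩
  have hfin := (hsum Finset.univ).2
  have e : (fun z => ∑ i, ρ i z * ψ z) = ψ := by
    funext z
    rw [← Finset.sum_mul]
    by_cases hz : z ∈ K
    · have := ρ.sum_eq_one hz
      rw [finsum_eq_sum_of_fintype] at this
      rw [this, one_mul]
    · rw [image_eq_zero_of_notMem_tsupport hz, mul_zero]
  rwa [e] at hfin

end Vale.Agent.P167.CA
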