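import Vale.Agent.P167.CA.Lim

/-!
# P167, CORE-ASM: the averaged Neumann condition in the limit
-/

namespace Vale.Agent.P167.CA

open MeasureTheory Filter Topology Set Complex Metric
open Vale.Agent.P167.BR (sites)
open scoped ContDiff

/-- Riemann sums of a continuous function. -/
theorem riemann {G : ℝ → ℝ} (hG : ContinuousOn G (Icc 0 1)) :
    Tendsto (fun n : ℕ => (∑ x ∈ Finset.range n, G (x / n)) / n) atTop
      (𝓝 (∫ t in (0 : ℝ)..1, G t)) := by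
  rw [Metric.tendsto_nhds]
  intro ε hε
  have huc := isCompact_Icc.uniformContinuousOn_of_continuous hG
  rw [Metric.uniformContinuousOn_iff] at huc
  obtain ⟨δ, hδ, hd⟩ := huc (ε / 2) (by positivity)
  have h1 : ∀ᶠ n : ℕ in atTop, (1 : ℝ) / n < δ := by
    have h9 : Tendsto (fun n : ℕ => (1 : ℝ) / (n : ℝ)) atTop (𝓝 0) :=
      tendsto_const_div_atTop_nhds_zero_nat 1
    exact h9.eventually (gt_mem_nhds hδ)
  filter_upwards [h1, eventually_gt_atTop 0] with n hn hn0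
  have hn' : (0 : ℝ) < n := by exact_mod_cast hn0
  have hsub : ∀ x ∈ Finset.range n, Icc ((x : ℝ) / n) ((x + 1 : ℕ) / n) ⊆ Icc (0 : ℝ) 1 := by
    intro x hx t ht
    rw [Finset.mem_range] at hx
    have h2 : ((x + 1 : ℕ) : ℝ) ≤ n := by exact_mod_cast hx
    refine ⟨le_trans (by positivity) ht.1, ht.2.trans ?_⟩
    rw [div_le_one hn']; exact h2
  have hle : ∀ x : ℕ, (x : ℝ) / n ≤ ((x + 1 : ℕ) : ℝ) / n := by
    intro x
    gcongr
    linarith
  have hint : ∀ x ∈ Finset.range n, IntervalIntegrable G volume ((x : ℝ) / n)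
      (((x + 1 : ℕ) : ℝ) / n) := by
    intro x hx
    refine ContinuousOn.intervalIntegrable ?_
    rw [uIcc_of_le (hle x)]
    exact hG.mono (hsub x hx)
  have e1 : ∫ t in (0 : ℝ)..1, G t =
      ∑ x ∈ Finset.range n, ∫ t in ((x : ℝ) / n)..(((x + 1 : ℕ) : ℝ) / n), G t := by
    have := intervalIntegral.sum_integral_adjacent_intervals (f := G) (μ := volume)
      (a := fun k : ℕ => (k : ℝ) / n) (n := n) fun k hk => hint k (Finset.mem_range.2 hk)
    rw [this]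
    simp [div_self hn'.ne']
  have e2 : (∑ x ∈ Finset.range n, G (x / n)) / n =
      ∑ x ∈ Finset.range n, ∫ t in ((x : ℝ) / n)..(((x + 1 : ℕ) : ℝ) / n), G (x / n) := by
    rw [Finset.sum_div]
    refine Finset.sum_congr rfl fun x _ => ?_
    rw [intervalIntegral.integral_const, smul_eq_mul]
    have : (((x + 1 : ℕ) : ℝ) / n) - (x : ℝ) / n = 1 / n := by push_cast; ring
    rw [this]; ring
  rw [dist_eq_norm, e2, e1, ← Finset.sum_sub_distrib]
  have h3 : ∀ x ∈ Finset.range n,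
      ‖(∫ t in ((x : ℝ) / n)..(((x + 1 : ℕ) : ℝ) / n), G (x / n)) -
        ∫ t in ((x : ℝ) / n)..(((x + 1 : ℕ) : ℝ) / n), G t‖ ≤ ε / 2 / n := by
    intro x hx
    rw [← intervalIntegral.integral_sub intervalIntegrable_const (hint x hx)]
    have h4 : ∀ t ∈ uIoc ((x : ℝ) / n) (((x + 1 : ℕ) : ℝ) / n), ‖G (x / n) - G t‖ ≤ ε / 2 := by
      intro t ht
      rw [uIoc_of_le (hle x)] at ht
      have ht' : t ∈ Icc ((x : ℝ) / n) (((x + 1 : ℕ) : ℝ) / n) := ⟨ht.1.le, ht.2⟩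
      have h5 := hd _ (hsub x hx ⟨le_rfl, hle x⟩) _ (hsub x hx ht') ?_
      · rw [dist_eq_norm] at h5; exact h5.le
      · rw [dist_eq_norm, Real.norm_eq_abs, abs_sub_comm, abs_of_nonneg (by linarith [ht'.1])]
        have : (((x + 1 : ℕ) : ℝ) / n) - (x : ℝ) / n = 1 / n := by push_cast; ring
        linarith [ht'.2]
    refine (intervalIntegral.norm_integral_le_of_norm_le_const h4).trans ?_
    have : (((x + 1 : ℕ) : ℝ) / n) - (x : ℝ) / n = 1 / n := by push_cast; ring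
    rw [this, abs_of_pos (by positivity)]
    apply le_of_eq; ring
  calc ‖_‖ ≤ ∑ x ∈ Finset.range n, ε / 2 / n := norm_sum_le_of_le _ h3
    _ = ε / 2 := by
        rw [Finset.sum_const, Finset.card_range, nsmul_eq_mul]
        field_simp
    _ < ε := by linarith

theorem tg_aux (r : Fin 4) : E6.pt (E6.dir (r + 1)) = I * E6.pt (E6.dir r) := by
  fin_cases r <;> apply Complex.ext <;> simp [E6.pt, E6.dir]

theorem pt_add (v w : ℤ × ℤ) : E6.pt (v + w) = E6.pt v + E6.pt w := by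
  apply Complex.ext <;> simp [E6.pt]

theorem pt_smul (a : ℤ) (v : ℤ × ℤ) : E6.pt (a • v) = a * E6.pt v := by
  apply Complex.ext <;> simp [E6.pt]

/-- The points of the closed cell on the left of a side. -/
theorem left_region {Q : Finset (ℤ × ℤ)} {w : ℤ × ℤ} {r : Fin 4} (h : E6.face w r ∈ Q) {a b : ℝ}
    (ha0 : 0 ≤ a) (ha1 : a ≤ 1) (hb0 : 0 ≤ b) (hb1 : b ≤ 1) :
    E6.pt w + a * E6.pt (E6.dir r) + b * (I * E6.pt (E6.dir r)) ∈ E6.region 1 Q := by
  rw [mem_region]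
  refine ⟨_, h, ?_⟩
  fin_cases r
  · simp [E6.pt, E6.dir, E6.face]
    refine ⟨?_, ?_, ?_, ?_⟩ <;> linarith
  · simp [E6.pt, E6.dir, E6.face]
    refine ⟨?_, ?_, ?_, ?_⟩ <;> linarith
  · simp [E6.pt, E6.dir, E6.face]
    refine ⟨?_, ?_, ?_, ?_⟩ <;> linarith
  · simp [E6.pt, E6.dir, E6.face]
    refine ⟨?_, ?_, ?_, ?_⟩ <;> linarith

/-- The sites of the closed cell on the left of a side. -/
theorem left_site {Q : Finset (ℤ × ℤ)} {n : ℕ} (hn : 0 < n) {w : ℤ × ℤ} {r : Fin 4}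
    (h : E6.face w r ∈ Q) {a b : ℕ} (ha : a ≤ n) (hb : b ≤ n) :
    (n : ℤ) • w + (a : ℤ) • E6.dir r + (b : ℤ) • E6.dir (r + 1) ∈ sites (enl Q n) := by
  have ha' : (a : ℤ) ≤ n := by exact_mod_cast ha
  have hb' : (b : ℤ) ≤ n := by exact_mod_cast hb
  have ha0 : (0 : ℤ) ≤ a := by positivity
  have hb0 : (0 : ℤ) ≤ b := by positivity
  refine site_mem hn h ?_ ?_ ?_ ?_
  all_goals
    fin_cases r <;> simp [E6.dir, E6.face] <;> nlinarith

/-- The discrete Neumann sums converge along the ultrafilter. -/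
theorem neu_lim {Q : Finset (ℤ × ℤ)} {w : ℕ → ℤ × ℤ → ℝ} {C β M : ℝ} (hC : 0 ≤ C) (hβ : 0 < β)
    (h : ∀ᶠ n : ℕ in atTop, Hol Q w C β M n) (U : Ultrafilter ℕ) (hU : (U : Filter ℕ) ≤ atTop)
    {W : ℂ → ℝ} (h1 : ∀ x ∈ E6.region 1 Q, Tendsto (fun n => w n (fs n x)) U (𝓝 (W x)))
    (h3 : ∀ x ∈ E6.region 1 Q, ∀ y ∈ E6.region 1 Q, |W x - W y| ≤ C * ‖x - y‖ ^ β)
    {v : ℤ × ℤ} {r : Fin 4} (hv : E6.face v r ∈ Q) {φ : ℝ → ℝ} (hφ : Continuous φ)
    (hs : tsupport φ ⊆ Ioo 0 1) {t₀ : ℝ} (ht0 : 0 ≤ t₀) (ht1 : t₀ ≤ 1) :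
    Tendsto (fun n : ℕ => (∑ x ∈ Finset.range n, φ (x / n) *
        (w n ((n : ℤ) • v + (x : ℤ) • E6.dir r + (⌊t₀ * n⌋₊ : ℤ) • E6.dir (r + 1)) -
          w n ((n : ℤ) • v + (x : ℤ) • E6.dir r))) / n) U
      (𝓝 (∫ t : ℝ, φ t * (W (E6.pt v + t * E6.pt (E6.dir r) + t₀ * (I * E6.pt (E6.dir r))) -
        W (E6.pt v + t * E6.pt (E6.dir r))))) := by
  have hU' : ∀ᶠ n in (U : Filter ℕ), Hol Q w C β M n := hU h
  set G : ℝ → ℝ := fun t => φ t *
    (W (E6.pt v + t * E6.pt (E6.dir r) + t₀ * (I * E6.pt (E6.dir r))) -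
      W (E6.pt v + t * E6.pt (E6.dir r))) with hG
  have hWc : ContinuousOn W (E6.region 1 Q) := by
    intro x hx
    rw [Metric.continuousWithinAt_iff']
    intro ε hε
    have h4 : Tendsto (fun y : ℂ => C * ‖x - y‖ ^ β) (𝓝 x) (𝓝 (C * ‖x - x‖ ^ β)) := by
      have h5 : Tendsto (fun y : ℂ => ‖x - y‖) (𝓝 x) (𝓝 ‖x - x‖) :=
        (tendsto_const_nhds.sub tendsto_id).norm
      exact (((Real.continuous_rpow_const hβ.le).tendsto _).comp h5).const_mul C
    rw [sub_self, norm_zero, Real.zero_rpow hβ.ne', mul_zero] at h4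
    filter_upwards [(h4.eventually (gt_mem_nhds hε)).filter_mono nhdsWithin_le_nhds,
      self_mem_nhdsWithin] with y hy hy2
    rw [dist_comm, Real.dist_eq]
    exact (h3 x hx y hy2).trans_lt hy
  have hp1 : ∀ t ∈ Icc (0 : ℝ) 1,
      E6.pt v + t * E6.pt (E6.dir r) + t₀ * (I * E6.pt (E6.dir r)) ∈ E6.region 1 Q := fun t ht =>
    left_region hv ht.1 ht.2 ht0 ht1
  have hp0 : ∀ t ∈ Icc (0 : ℝ) 1, E6.pt v + t * E6.pt (E6.dir r) ∈ E6.region 1 Q := fun t ht => by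
    have := left_region hv ht.1 ht.2 le_rfl zero_le_one
    simpa using this
  have hGc : ContinuousOn G (Icc 0 1) := by
    refine hφ.continuousOn.mul (ContinuousOn.sub ?_ ?_)
    · refine hWc.comp (f := fun t : ℝ =>
        E6.pt v + t * E6.pt (E6.dir r) + t₀ * (I * E6.pt (E6.dir r))) ?_ hp1
      fun_prop
    · refine hWc.comp (f := fun t : ℝ => E6.pt v + t * E6.pt (E6.dir r)) ?_ hp0
      fun_prop
  have hG0 : ∀ t, t ∉ Ioo (0 : ℝ) 1 → G t = 0 := by
    intro t ht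
    have : φ t = 0 := image_eq_zero_of_notMem_tsupport fun h => ht (hs h)
    simp [hG, this]
  have hGi : ∫ t in (0 : ℝ)..1, G t = ∫ t : ℝ, G t := by
    rw [intervalIntegral.integral_of_le zero_le_one]
    refine setIntegral_eq_integral_of_forall_compl_eq_zero fun t ht => hG0 t fun h => ht ?_
    exact ⟨h.1, h.2.le⟩
  have hR := (riemann hGc).mono_left hU
  rw [hGi] at hR
  obtain ⟨K, hK⟩ : ∃ K, ∀ t, |φ t| ≤ K := by
    have hcs : HasCompactSupport φ := by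
      refine HasCompactSupport.of_support_subset_isCompact (K := Icc 0 1) isCompact_Icc ?_
      exact (subset_tsupport φ).trans (hs.trans Ioo_subset_Icc_self)
    obtain ⟨K, hK⟩ := hcs.exists_bound_of_continuous hφ
    exact ⟨K, hK⟩
  have hK0 : 0 ≤ K := (abs_nonneg _).trans (hK 0)
  -- the difference of the two sums tends to zero
  refine (tendsto_iff_of_dist ?_).2 hR
  rw [Metric.tendsto_nhds]
  intro ε hε
  obtain ⟨δ, hδ, hu⟩ := lim_unif hC hβ h U hU h1 h3 (ε := ε / (4 * (K + 1))) (by positivity)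
  have h8 : ∀ᶠ n : ℕ in (U : Filter ℕ), (1 : ℝ) / n ≤ δ := by
    have h9 : Tendsto (fun n : ℕ => (1 : ℝ) / (n : ℝ)) atTop (𝓝 0) :=
      tendsto_const_div_atTop_nhds_zero_nat 1
    exact (h9.mono_left hU).eventually (ge_mem_nhds hδ)
  filter_upwards [hU', hu, h8] with n hn hnu hn8
  have hn0 := hn.pos
  have hn' : (0 : ℝ) < n := by exact_mod_cast hn0
  have hnC : (n : ℂ) ≠ 0 := by exact_mod_cast hn0.ne'
  rw [Real.dist_eq, Real.dist_eq, sub_zero, abs_abs, ← sub_div, abs_div, abs_of_pos hn',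
    ← Finset.sum_sub_distrib]
  have hfl : (⌊t₀ * n⌋₊ : ℝ) ≤ t₀ * n := Nat.floor_le (by positivity)
  have hfl2 : t₀ * n < ⌊t₀ * n⌋₊ + 1 := Nat.lt_floor_add_one _
  have hfln : ⌊t₀ * n⌋₊ ≤ n := by
    have : (⌊t₀ * n⌋₊ : ℝ) ≤ n := hfl.trans (by nlinarith)
    exact_mod_cast this
  have h10 : ∀ x ∈ Finset.range n, |φ (x / n) *
        (w n ((n : ℤ) • v + (x : ℤ) • E6.dir r + (⌊t₀ * n⌋₊ : ℤ) • E6.dir (r + 1)) -
          w n ((n : ℤ) • v + (x : ℤ) • E6.dir r)) - G (x / n)| ≤ K * (ε / (2 * (K + 1))) := by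
    intro x hx
    rw [Finset.mem_range] at hx
    have hx1 : ((x : ℝ) / n) ∈ Icc (0 : ℝ) 1 := by
      refine ⟨by positivity, ?_⟩
      rw [div_le_one hn']; exact_mod_cast hx.le
    have hxC : (((x : ℝ) / n : ℝ) : ℂ) = (x : ℂ) / n := by push_cast; rfl
    have b1 : |w n ((n : ℤ) • v + (x : ℤ) • E6.dir r + (⌊t₀ * n⌋₊ : ℤ) • E6.dir (r + 1)) -
        W (E6.pt v + ((x : ℝ) / n : ℝ) * E6.pt (E6.dir r) + t₀ * (I * E6.pt (E6.dir r)))| ≤
        ε / (4 * (K + 1)) := by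
      refine hnu _ (left_site hn0 hv hx.le hfln) _ (hp1 _ hx1) ?_
      refine le_trans (le_of_eq ?_) ((?_ : |(⌊t₀ * n⌋₊ : ℝ) / n - t₀| ≤ 1 / n).trans hn8)
      · have e1 : E6.pt ((n : ℤ) • v + (x : ℤ) • E6.dir r + (⌊t₀ * n⌋₊ : ℤ) • E6.dir (r + 1)) / n -
            (E6.pt v + ((x : ℝ) / n : ℝ) * E6.pt (E6.dir r) + t₀ * (I * E6.pt (E6.dir r))) =
            (((⌊t₀ * n⌋₊ : ℝ) / n - t₀ : ℝ) : ℂ) * (I * E6.pt (E6.dir r)) := by
          rw [pt_add, pt_add, pt_smul, pt_smul, pt_smul, tg_aux, hxC]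
          push_cast
          field_simp
          ring
        have e2 : ‖I * E6.pt (E6.dir r)‖ = 1 := by
          fin_cases r <;> simp [E6.pt, E6.dir, Complex.norm_eq_sqrt_sq_add_sq]
        rw [e1, norm_mul, e2, mul_one, Complex.norm_real, Real.norm_eq_abs]
      · have e3 : (⌊t₀ * n⌋₊ : ℝ) / n - t₀ = ((⌊t₀ * n⌋₊ : ℝ) - t₀ * n) / n := by
          field_simp
        rw [e3, abs_div, abs_of_pos hn']
        refine (div_le_div_iff_of_pos_right hn').2 ?_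
        rw [abs_le]; constructor <;> linarith
    have b2 : |w n ((n : ℤ) • v + (x : ℤ) • E6.dir r) -
        W (E6.pt v + ((x : ℝ) / n : ℝ) * E6.pt (E6.dir r))| ≤ ε / (4 * (K + 1)) := by
      have hsite := left_site hn0 hv (a := x) (b := 0) hx.le (Nat.zero_le _)
      rw [Nat.cast_zero, zero_smul, add_zero] at hsite
      refine hnu _ hsite _ (hp0 _ hx1) ?_
      have e1 : E6.pt ((n : ℤ) • v + (x : ℤ) • E6.dir r) / n -
          (E6.pt v + ((x : ℝ) / n : ℝ) * E6.pt (E6.dir r)) = 0 := by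
        rw [pt_add, pt_smul, pt_smul, hxC]
        push_cast
        field_simp
        ring
      rw [e1, norm_zero]
      exact hδ.le
    simp only [hG]
    rw [← mul_sub, abs_mul]
    refine mul_le_mul (hK _) ?_ (abs_nonneg _) hK0
    have e4 : ε / (2 * (K + 1)) = ε / (4 * (K + 1)) + ε / (4 * (K + 1)) := by field_simp; ring
    rw [e4]
    refine le_trans (le_of_eq ?_) ((abs_sub _ _).trans (add_le_add b1 b2))
    congr 1
    ring
  have h11 : |∑ x ∈ Finset.range n, (φ (x / n) *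
        (w n ((n : ℤ) • v + (x : ℤ) • E6.dir r + (⌊t₀ * n⌋₊ : ℤ) • E6.dir (r + 1)) -
          w n ((n : ℤ) • v + (x : ℤ) • E6.dir r)) - G (x / n))| ≤
        n * (K * (ε / (2 * (K + 1)))) := by
    refine (Finset.abs_sum_le_sum_abs _ _).trans ?_
    refine (Finset.sum_le_sum h10).trans ?_
    rw [Finset.sum_const, Finset.card_range, nsmul_eq_mul]
  rw [div_lt_iff₀ hn']
  refine lt_of_le_of_lt h11 ?_
  rw [mul_comm ε]
  refine mul_lt_mul_of_pos_left ?_ hn'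
  have e5 : K * (ε / (2 * (K + 1))) = ε * (K / (2 * (K + 1))) := by ring
  rw [e5]
  have : K / (2 * (K + 1)) < 1 := by rw [div_lt_one (by positivity)]; linarith
  nlinarith

end Vale.Agent.P167.CA
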